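import Vale.Agent.P224.S15.ZeroD

/-!
Numerical bounds for the constants of the certificate with a parameter in dimension 15.
-/

namespace Vale.Agent.P224.S15

noncomputable section

lemma L13_one : L13 1 = Real.log ((11 + 1 * √105) / 4) := by
  have h : √(28 / 15 : ℝ) = (2 / 15) * √105 := by
    rw [show (28 / 15 : ℝ) = ((2 / 15) * √105) ^ 2 by
      rw [mul_pow, Real.sq_sqrt (by norm_num)]; norm_num]
    exact Real.sqrt_sq (by positivity)
  unfold L13 SP.qL SP.qD SP.qR
  rw [show (1 : ℝ) + 14 / 15 * 1 + (-1 / 15) * 1 ^ 2 = 28 / 15 by norm_num, h]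
  congr 1
  ring

lemma log_rho : Real.log (3584 / 675) = (9) * Real.log 2 + (-3) * Real.log 3
    + (-2) * Real.log 5 + (1) * Real.log 7 := by
  rw [Real.log_div (by norm_num) (by norm_num)]
  have h1 : Real.log 3584 = 9 * Real.log 2 + 1 * Real.log 7 := by
    rw [show (3584 : ℝ) = (2 : ℝ) ^ 9 * (7 : ℝ) ^ 1 by norm_num]
    rw [Real.log_mul (by norm_num) (by norm_num)]
    simp only [Real.log_pow]
    norm_num
  have h2 : Real.log 675 = 3 * Real.log 3 + 2 * Real.log 5 := by
    rw [show (675 : ℝ) = (3 : ℝ) ^ 3 * (5 : ℝ) ^ 2 by norm_num]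
    rw [Real.log_mul (by norm_num) (by norm_num)]
    simp only [Real.log_pow]
    norm_num
  rw [h1, h2]
  ring

lemma log_lg : Real.log (8 / 7) = (3) * Real.log 2 + (-1) * Real.log 7 := by
  rw [Real.log_div (by norm_num) (by norm_num)]
  have h8 : Real.log 8 = 3 * Real.log 2 := by
    rw [show (8 : ℝ) = (2 : ℝ) ^ 3 by norm_num]
    simp only [Real.log_pow]
    norm_num
  rw [h8]
  ring

lemma KK_bd : (1608271 : ℝ) / 10000000 ≤ KK ∧ KK ≤ 1608276 / 10000000 := by
  have b2 := LG.bd2
  have b3 := LG.bd3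
  have b5 := LG.bd5
  have b7 := LG.bd7
  have s1 : (10246950765 : ℝ) / 1000000000 ≤ √105 := Real.le_sqrt_of_sq_le (by norm_num)
  have s2 : √(105 : ℝ) ≤ 10246950766 / 1000000000 := Real.sqrt_le_iff.2 ⟨by norm_num, by norm_num⟩
  have s3 : √(105 : ℝ) ^ 2 = 105 := Real.sq_sqrt (by norm_num)
  have up : Real.log ((11 + 1 * √105) / 4) ≤ Real.log (3584 / 675)
      + (11 + 1 * √105) / 4 * (675 / 3584) - 1 := by
    have h1 : Real.log ((11 + 1 * √105) / 4 * (675 / 3584))
        = Real.log ((11 + 1 * √105) / 4) + Real.log (675 / 3584) :=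
      Real.log_mul (by positivity) (by norm_num)
    have h2 : Real.log (675 / 3584) = -Real.log (3584 / 675) := by
      rw [← Real.log_inv]
      norm_num
    have h3 := Real.log_le_sub_one_of_pos
      (show 0 < (11 + 1 * √105) / 4 * (675 / 3584) by positivity)
    linarith
  have hpos : 0 < (11 - 1 * √105) / 4 := by
    have : 0 < 11 - 1 * √(105 : ℝ) := by linarith
    positivity
  have lo : Real.log (3584 / 675) + 1 - (11 - 1 * √105) / 4 * (3584 / 675)
      ≤ Real.log ((11 + 1 * √105) / 4) := by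
    have h1 : Real.log ((11 - 1 * √105) / 4 * (3584 / 675))
        = Real.log ((11 - 1 * √105) / 4) + Real.log (3584 / 675) :=
      Real.log_mul hpos.ne' (by norm_num)
    have h2 : Real.log ((11 - 1 * √105) / 4)
        = -Real.log ((11 + 1 * √105) / 4) := by
      rw [← Real.log_inv]
      congr 1
      exact eq_inv_of_mul_eq_one_left (by
        linear_combination (-(1 ^ 2 / (4 : ℝ) ^ 2)) * s3)
    have h3 := Real.log_le_sub_one_of_pos
      (show 0 < (11 - 1 * √105) / 4 * (3584 / 675) from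
        mul_pos hpos (by norm_num))
    linarith
  unfold KK cst15
  rw [L13_one, log_lg]
  rw [log_rho] at up lo
  constructor <;> linarith [b2.1, b2.2, b3.1, b3.2, b5.1, b5.2, b7.1, b7.2]

lemma gamD_bd : (52238 : ℝ) / 100000 ≤ gamD ∧ gamD ≤ 52240 / 100000 := by
  have b2 := LG.bd2
  have b3 := LG.bd3
  have b5 := LG.bd5
  have b7 := LG.bd7
  have hK := KK_bd
  unfold gamD kapD
  rw [logl]
  constructor <;> linarith [b2.1, b2.2, b3.1, b3.2, b5.1, b5.2, b7.1, b7.2, hK.1, hK.2]

lemma rhoD_bd : (86861 : ℝ) / 1000000 ≤ rhoD ∧ rhoD ≤ 86862 / 1000000 := by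
  have h := XD_bd
  unfold XD at h
  unfold rhoD
  constructor <;> linarith [h.1, h.2]

end

end Vale.Agent.P224.S15
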