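import Vale.Agent.P224.S7.Consts7

/-!
Constants for `m = 15`.
-/

namespace Vale.Agent.P224.S15

open Real Finset Vale.Agent.P224.SP Vale.Agent.P224.S7

lemma logA_eq : Real.log (32 / 7) = (5 * Real.log 2) - (1 * Real.log 7) := by
  have h1 : Real.log 32 = 5 * Real.log 2 := by
    rw [show (32 : ℝ) = 2 ^ 5 by norm_num,
      Real.log_pow]
    push_cast; ring
  have h2 : Real.log 7 = 1 * Real.log 7 := (one_mul _).symm
  rw [Real.log_div (by norm_num) (by norm_num)]
  linear_combination h1 - h2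

theorem logA_bd : |(10 : ℝ) ^ 18 * Real.log (32 / 7) - 1519825753744413242| ≤ 3 / 4 := by
  rw [logA_eq]
  have h0 := la_bd
  have h1 := lb_bd
  have h2 := lc_bd
  have h3 := ld_bd
  rw [abs_le] at h0 h1 h2 h3 ⊢
  constructor <;> linarith [h0.1, h0.2, h1.1, h1.2, h2.1, h2.2, h3.1, h3.2]

lemma logE_eq : Real.log (225 / 56) = (2 * Real.log 3 + 2 * Real.log 5) - (3 * Real.log 2 + 1 * Real.log 7) := by
  have h1 : Real.log 225 = 2 * Real.log 3 + 2 * Real.log 5 := by
    rw [show (225 : ℝ) = 3 ^ 2 * 5 ^ 2 by norm_num,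
      Real.log_mul (by norm_num) (by norm_num),
      Real.log_pow,
      Real.log_pow]
    push_cast; ring
  have h2 : Real.log 56 = 3 * Real.log 2 + 1 * Real.log 7 := by
    rw [show (56 : ℝ) = 2 ^ 3 * 7 ^ 1 by norm_num,
      Real.log_mul (by norm_num) (by norm_num),
      Real.log_pow,
      Real.log_pow]
    push_cast; ring
  rw [Real.log_div (by norm_num) (by norm_num)]
  linear_combination h1 - h2

theorem logE_bd : |(10 : ℝ) ^ 18 * Real.log (225 / 56) - 1390748711469270899| ≤ 3 / 4 := by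
  rw [logE_eq]
  have h0 := la_bd
  have h1 := lb_bd
  have h2 := lc_bd
  have h3 := ld_bd
  rw [abs_le] at h0 h1 h2 h3 ⊢
  constructor <;> linarith [h0.1, h0.2, h1.1, h1.2, h2.1, h2.2, h3.1, h3.2]

lemma logB_eq : Real.log (15 / 4) = (1 * Real.log 3 + 1 * Real.log 5) - (2 * Real.log 2) := by
  have h1 : Real.log 15 = 1 * Real.log 3 + 1 * Real.log 5 := by
    rw [show (15 : ℝ) = 3 ^ 1 * 5 ^ 1 by norm_num,
      Real.log_mul (by norm_num) (by norm_num),
      Real.log_pow,
      Real.log_pow]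
    push_cast; ring
  have h2 : Real.log 4 = 2 * Real.log 2 := by
    rw [show (4 : ℝ) = 2 ^ 2 by norm_num,
      Real.log_pow]
    push_cast; ring
  rw [Real.log_div (by norm_num) (by norm_num)]
  linear_combination h1 - h2

theorem logB_bd : |(10 : ℝ) ^ 18 * Real.log (15 / 4) - 1321755839982319447| ≤ 3 / 4 := by
  rw [logB_eq]
  have h0 := la_bd
  have h1 := lb_bd
  have h2 := lc_bd
  have h3 := ld_bd
  rw [abs_le] at h0 h1 h2 h3 ⊢
  constructor <;> linarith [h0.1, h0.2, h1.1, h1.2, h2.1, h2.2, h3.1, h3.2]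

lemma sqrt_lo : (10246950765959598383221038 : ℝ) / 10 ^ 24 ≤ Real.sqrt 105 := by
  apply Real.le_sqrt_of_sq_le
  norm_num

lemma sqrt_hi : Real.sqrt 105 ≤ (10246950765959598383221039 : ℝ) / 10 ^ 24 := by
  rw [Real.sqrt_le_left (by norm_num)]
  norm_num

theorem sqrt_bd : |(10 : ℝ) ^ 18 * Real.sqrt 105 - 10246950765959598383| ≤ 3 / 4 := by
  have h1 := sqrt_lo
  have h2 := sqrt_hi
  rw [abs_le]
  norm_num at h1 h2 ⊢
  constructor <;> linarith

theorem logU_bd : |(10 : ℝ) ^ 18 * Real.log ((11 + √105) / 4) - 1669919030587769987| ≤ 3 / 4 := by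
  have h := artanh_aux (x := 2028698708827294523053 / 10 ^ 24)
    (by rw [abs_of_nonneg] <;> norm_num) 10
  rw [abs_of_nonneg (by norm_num : (0 : ℝ) ≤ 2028698708827294523053 / 10 ^ 24)] at h
  have h1 := sqrt_lo
  have h2 := sqrt_hi
  set s := √105 with hs
  have hs0 : 0 ≤ s := Real.sqrt_nonneg _
  set p : ℝ := 1 + 2028698708827294523053 / 10 ^ 24 with hp
  set m : ℝ := 1 - 2028698708827294523053 / 10 ^ 24 with hm
  have hp0 : 0 < p := by rw [hp]; norm_num
  have hm0 : 0 < m := by rw [hm]; norm_num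
  have e : Real.log ((11 + s) / 4) = ((4 * Real.log 2) - (1 * Real.log 3)) -
      (Real.log p - Real.log m) + Real.log ((11 + s) / 4 * p / (16 / 3 * m)) := by
    have e0 : Real.log ((11 + s) / 4 * p / (16 / 3 * m)) =
        Real.log ((11 + s) / 4) + Real.log p - (Real.log (16 / 3) + Real.log m) := by
      rw [Real.log_div (by positivity) (by positivity), Real.log_mul (by positivity) hp0.ne',
        Real.log_mul (by norm_num) hm0.ne']
    have g1 : Real.log 16 = 4 * Real.log 2 := by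
      rw [show (16 : ℝ) = 2 ^ 4 by norm_num,
        Real.log_pow]
      push_cast; ring
    have g2 : Real.log 3 = 1 * Real.log 3 := (one_mul _).symm
    have e2 : Real.log (16 / 3) = (4 * Real.log 2) - (1 * Real.log 3) := by
      rw [Real.log_div (by norm_num) (by norm_num)]
      linear_combination g1 - g2
    rw [e0, e2]
    ring
  have hr1 : |(11 + s) / 4 * p / (16 / 3 * m) - 1| ≤ 1 / 10 ^ 22 := by
    rw [div_sub_one (by positivity), abs_div, abs_of_pos (show 0 < 16 / 3 * m by positivity),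
      div_le_iff₀ (by positivity), abs_le]
    rw [hp, hm]
    norm_num at h1 h2 ⊢
    constructor <;> linarith
  have hr0 : 0 < (11 + s) / 4 * p / (16 / 3 * m) := by positivity
  have hr2 := Real.log_le_sub_one_of_pos hr0
  have hr3 : 1 - ((11 + s) / 4 * p / (16 / 3 * m))⁻¹ ≤
      Real.log ((11 + s) / 4 * p / (16 / 3 * m)) := Real.one_sub_inv_le_log_of_pos hr0
  rw [abs_le] at hr1
  have hr4 : ((11 + s) / 4 * p / (16 / 3 * m))⁻¹ ≤ 1 + 1 / 10 ^ 20 := by
    rw [inv_le_comm₀ hr0 (by positivity)]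
    refine le_trans ?_ (by linarith [hr1.1] : 1 - 1 / 10 ^ 22 ≤ (11 + s) / 4 * p / (16 / 3 * m))
    norm_num
  have k0 := la_bd
  have k1 := lb_bd
  have k2 := lc_bd
  have k3 := ld_bd
  rw [e]
  set L := Real.log ((11 + s) / 4 * p / (16 / 3 * m)) with hL
  have hL1 : L ≤ 1 / 10 ^ 20 := by
    have : (1 : ℝ) / 10 ^ 22 ≤ 1 / 10 ^ 20 := by norm_num
    linarith [hr1.2]
  have hL2 : -(1 / 10 ^ 20) ≤ L := by linarith
  simp only [Finset.sum_range_succ, Finset.sum_range_zero] at h
  rw [abs_le] at h k0 k1 k2 k3 ⊢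
  norm_num at h ⊢
  norm_num at hL1 hL2
  constructor <;> linarith [h.1, h.2, k0.1, k0.2, k1.1, k1.2, k2.1, k2.2, k3.1, k3.2]

end Vale.Agent.P224.S15
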