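import Vale.Agent.P224.S15.AsmZ
import Vale.Agent.P224.S15.Der

/-!
The pointwise inequality on `(0, 1)` from certificate data: columns with combinations of the base
functions and columns with polynomials.
-/

namespace Vale.Agent.P224.S15

open Vale.Agent.P224.UE Vale.Agent.P224.POS Vale.Agent.P224.PO Vale.Agent.P224.SO Set
open Vale.Agent.P224.SP (ev ev_nil ev_cons derL Q4)
open scoped RealInnerProductSpace

noncomputable section

/-- the polynomial in `T` as an expression -/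
def hPE (l : List ℤ) : PE :=
  List.rec (motive := fun _ => PE) (.c 0) (fun a _ e => .add (.c a) (.mul (.v 4) e)) l

lemma ev_hPE (l : List ℤ) (T : ℝ) : PE.ev (fT T) (hPE l) = ev l T := by
  induction l with
  | nil =>
    have e : hPE [] = .c 0 := rfl
    rw [e, PE.ev_c, Int.cast_zero, ev_nil]
  | cons a l ih =>
    have e : hPE (a :: l) = .add (.c a) (.mul (.v 4) (hPE l)) := rfl
    rw [e, PE.ev_add, PE.ev_mul, PE.ev_c, PE.ev_v, ih, ev_cons]
    simp [fT]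

/-- the base functions -/
def bf (p : ℕ) (T : ℝ) : ℝ := if p = 0 then 1 else if p = 1 then f1 T else if p = 2 then f2 T
  else F3 T

/-- the coefficients in the base functions -/
def rP (c0 : ℕ) (N : Q4) : List PE := [.mul (.c (Int.ofNat c0)) (hPE N.n0),
  .mul (.c (Int.ofNat c0)) (hPE N.n1), .mul (.c (Int.ofNat c0)) (hPE N.n2),
  .mul (.c (Int.ofNat c0)) (hPE N.n3)]

lemma sum_rP (c0 : ℕ) (N : Q4) (T : ℝ) :
    ∑ p ∈ Finset.range 4, bf p T * PE.ev (fT T) ((rP c0 N).getD p (.c 0)) = c0 * G4 N T := by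
  simp only [Finset.sum_range_succ, Finset.sum_range_zero, zero_add, rP, List.getD_cons_zero,
    List.getD_cons_succ, PE.ev_mul, PE.ev_c, ev_hPE, bf, if_true, if_false, G4,
    Int.ofNat_eq_natCast, Int.cast_natCast, OfNat.ofNat_ne_zero, OfNat.ofNat_ne_one,
    OfNat.one_ne_ofNat, one_ne_zero, OfNat.ofNat_eq_ofNat]
  norm_num
  ring

lemma sum_single (e : PE) (T : ℝ) :
    ∑ p ∈ Finset.range 4, bf p T * PE.ev (fT T) (([e] : List PE).getD p (.c 0))
      = PE.ev (fT T) e := by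
  simp [Finset.sum_range_succ, bf]

/-- a value column with combinations `N0 / dl`, `N1 / dl` of the base functions -/
structure VBz where
  K : VK
  N0 : Q4
  N1 : Q4
  B0 : List ℤ
  E0 : ℕ
  h0 : ℕ
  L20 : WG
  L30 : WG
  B1 : List ℤ
  E1 : ℕ
  h1 : ℕ
  L21 : WG
  L31 : WG

/-- a value column with the polynomial `p / D0` -/
structure VFz where
  K : VK
  p : List ℤ
  L20 : WG
  L30 : WG
  L21 : WG
  L31 : WG

/-- a row column with a combination `N / dl` of the base functions -/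
structure RBz where
  K : RL
  N : Q4
  B : List ℤ
  E : ℕ
  h : ℕ
  L2 : WG
  L3 : WG

/-- a row column with the polynomial `p / D0` -/
structure RFz where
  K : RL
  p : List ℤ
  L2 : WG
  L3 : WG

/-- the column -/
def VBz.z (c0 k : ℕ) (x : VBz) : VZ := ⟨x.K, rP c0 x.N0, rP c0 x.N1,
  .mul (.c (Int.ofNat k)) (hPE x.B0), k * x.E0, x.h0, x.L20, x.L30,
  .mul (.c (Int.ofNat k)) (hPE x.B1), k * x.E1, x.h1, x.L21, x.L31⟩

/-- the column -/
def VFz.z (dl : List ℤ) (k : ℕ) (x : VFz) : VZ := ⟨x.K, [.mul (hPE dl) (hPE x.p)],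
  [.mul (hPE dl) (hPE (derL x.p))], .mul (.c (Int.ofNat k)) (hPE x.p), 0, 0, x.L20, x.L30,
  .mul (.c (Int.ofNat k)) (hPE (derL x.p)), 0, 0, x.L21, x.L31⟩

/-- the column -/
def RBz.z (c0 k : ℕ) (x : RBz) : RZ := ⟨x.K, rP c0 x.N, .mul (.c (Int.ofNat k)) (hPE x.B),
  k * x.E, x.h, x.L2, x.L3⟩

/-- the column -/
def RFz.z (dl : List ℤ) (k : ℕ) (x : RFz) : RZ := ⟨x.K, [.mul (hPE dl) (hPE x.p)],
  .mul (.c (Int.ofNat k)) (hPE x.p), 0, 0, x.L2, x.L3⟩

/-- the coefficient function -/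
def VBz.g (dl : List ℤ) (x : VBz) (T : ℝ) : ℝ := G4 x.N0 T / ev dl T

/-- its derivative -/
def VBz.g' (dl : List ℤ) (x : VBz) (T : ℝ) : ℝ := G4 x.N1 T / ev dl T

/-- the coefficient function -/
def VFz.g (c0 : ℕ) (x : VFz) (T : ℝ) : ℝ := ev x.p T / c0

/-- its derivative -/
def VFz.g' (c0 : ℕ) (x : VFz) (T : ℝ) : ℝ := ev (derL x.p) T / c0

/-- the coefficient function -/
def RBz.f (dl : List ℤ) (x : RBz) (T : ℝ) : ℝ := G4 x.N T / ev dl T

/-- the coefficient function -/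
def RFz.f (c0 : ℕ) (x : RFz) (T : ℝ) : ℝ := ev x.p T / c0

/-- the value columns with their functions; `κ`, `κ'` give the power of `1 - T` and the limit -/
def lVD (dl : List ℤ) (c0 kB kF : ℕ) (lb : List VBz) (lf : List VFz) (κ : VBz → ℕ × ℝ)
    (κ' : VFz → ℕ × ℝ) : List (VZ × (ℝ → ℝ) × (ℝ → ℝ) × ℕ × ℝ) :=
  (lb.map fun x => (x.z c0 kB, x.g dl, x.g' dl, κ x))
    ++ lf.map fun x => (x.z dl kF, x.g c0, x.g' c0, κ' x)

/-- the row columns with their functions -/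
def lRD (dl : List ℤ) (c0 kB kF : ℕ) (rb : List RBz) (rf : List RFz) :
    List (RZ × (ℝ → ℝ)) :=
  (rb.map fun x => (x.z c0 kB, x.f dl)) ++ rf.map fun x => (x.z dl kF, x.f c0)

/-- the value columns -/
def VD (dl : List ℤ) (c0 kB kF : ℕ) (lb : List VBz) (lf : List VFz) : List VZ :=
  lb.map (VBz.z c0 kB) ++ lf.map (VFz.z dl kF)

/-- the row columns -/
def RD (dl : List ℤ) (c0 kB kF : ℕ) (rb : List RBz) (rf : List RFz) : List RZ :=
  rb.map (RBz.z c0 kB) ++ rf.map (RFz.z dl kF)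

/-- the data is well formed -/
def okD (lb : List VBz) (lf : List VFz) (rb : List RBz) (rf : List RFz) : Bool :=
  (lb.all fun x => Nat.ble x.K.q 11) && (lf.all fun x => Nat.ble x.K.q 11)
    && (rb.all fun x => Nat.ble x.K.q 11) && (rf.all fun x => Nat.ble x.K.q 11)

lemma only4_hPE (l : List ℤ) : only4 (hPE l) = true := by
  induction l with
  | nil => rfl
  | cons a l ih =>
    have e : only4 (hPE (a :: l)) = only4 (hPE l) := rfl
    rw [e, ih]

lemma only4_mulc (n : ℤ) (e : PE) (h : only4 e = true) : only4 (.mul (.c n) e) = true := h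

lemma only4_mul {a b : PE} (ha : only4 a = true) (hb : only4 b = true) :
    only4 (.mul a b) = true := by
  have e : only4 (.mul a b) = Bool.rec (motive := fun _ => Bool) false (only4 b) (only4 a) := rfl
  rw [e, ha, hb]

lemma only4_rP (c0 : ℕ) (N : Q4) : (rP c0 N).all only4 = true := by
  simp only [rP, List.all_cons, List.all_nil, only4_mulc _ _ (only4_hPE _), Bool.and_true]

/-- **The pointwise inequality** from the data. -/
theorem hpos_D {dl : List ℤ} (hdl : ∀ T ∈ Ioo (0 : ℝ) 1, 0 < ev dl T) {c0 DD kB kF : ℕ}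
    (hc0 : 0 < c0) (hDD : 0 < DD) (hkB : 0 < kB) (hk : kB * DD = kF * c0)
    {lb : List VBz} {lf : List VFz} {rb : List RBz} {rf : List RFz}
    (κ : VBz → ℕ × ℝ) (κ' : VFz → ℕ × ℝ) (hok : okD lb lf rb rf = true)
    (hb0 : ∀ x ∈ lb, (!(x.L20.wm.isEmpty && x.L30.wm.isEmpty)) = true → ∀ T : ℝ, 0 < T → T < 1 →
      |(DD : ℝ) * (G4 x.N0 T / ev dl T) - ev x.B0 T| ≤ x.E0 * (1 - T) ^ x.h0)
    (hb1 : ∀ x ∈ lb, (!(x.L21.wm.isEmpty && x.L31.wm.isEmpty)) = true → ∀ T : ℝ, 0 < T → T < 1 →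
      |(DD : ℝ) * (G4 x.N1 T / ev dl T) - ev x.B1 T| ≤ x.E1 * (1 - T) ^ x.h1)
    (hbr : ∀ x ∈ rb, (!(x.L2.wm.isEmpty && x.L3.wm.isEmpty)) = true → ∀ T : ℝ, 0 < T → T < 1 →
      |(DD : ℝ) * (G4 x.N T / ev dl T) - ev x.B T| ≤ x.E * (1 - T) ^ x.h)
    (hct : ∀ f : ℕ → ℝ, (∀ i, 5 ≤ i → f i = 0) → ∀ p < 4,
      PE.ev f (Ctz p (clZ (VD dl c0 kB kF lb lf) (RD dl c0 kB kF rb rf))) = 0)
    (htr : ∀ f : ℕ → ℝ, (∀ i, 5 ≤ i → f i = 0) →
      ∀ c ∈ clZ (VD dl c0 kB kF lb lf) (RD dl c0 kB kF rb rf), PE.ev f c.tr = 0)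
    {J n2 n3 D2 D3 : ℕ}
    (herr : errZ J n2 n3 (clZ (VD dl c0 kB kF lb lf) (RD dl c0 kB kF rb rf)) D2 D3 = true)
    {E : Type*} [NormedAddCommGroup E] [InnerProductSpace ℝ E]
    (hQ : ∀ T ∈ Ioo (0 : ℝ) 1, ∀ x N y w : E, ‖x‖ = 1 → ‖N‖ = 1 → ‖y‖ = 1 → ‖w‖ = 1 →
      ⟪x, N⟫ = 0 → ⟪y, w⟫ = 0 → 0 ≤ PE.ev (vT T ⟪x, y⟫ ⟪x, w⟫ ⟪N, y⟫ ⟪N, w⟫)
        (.sub (Qz (clZ (VD dl c0 kB kF lb lf) (RD dl c0 kB kF rb rf))) (pW2 n2 n3 D2 D3))) :
    ∀ T ∈ Ioo (0 : ℝ) 1, ∀ x N y w : E, ‖x‖ = 1 → ‖N‖ = 1 → ‖y‖ = 1 → ‖w‖ = 1 →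
      ⟪x, N⟫ = 0 → ⟪y, w⟫ = 0 →
      gS' ((lGZ (lVD dl c0 kB kF lb lf κ κ')).map GT.v) T (dv x N y w 0)
        ≤ (OT.Rs 15 (lRZ (lRD dl c0 kB kF rb rf)) T (dv x N y w 0)
          + OT.Rs 15 (lRZ (lRD dl c0 kB kF rb rf)) T (sw9 (dv x N y w 0))) / 2 := by
  have hc0R : (0 : ℝ) < c0 := by exact_mod_cast hc0
  have hkBR : (0 : ℝ) < kB := by exact_mod_cast hkB
  have hDDR : (0 : ℝ) < DD := by exact_mod_cast hDD
  have hkR : (kB : ℝ) * DD = kF * c0 := by exact_mod_cast hk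
  unfold okD at hok
  rw [Bool.and_eq_true, Bool.and_eq_true, Bool.and_eq_true] at hok
  obtain ⟨⟨⟨o1, o2⟩, o3⟩, o4⟩ := hok
  have hdn : ∀ T : ℝ, dZ (.mul (.c (Int.ofNat c0)) (hPE dl)) T = c0 * ev dl T := by
    intro T
    unfold dZ
    rw [PE.ev_mul, PE.ev_c, ev_hPE, Int.ofNat_eq_natCast, Int.cast_natCast]
  -- errors
  have herr1 : ∀ {F : ℝ} {B : List ℤ} {E h : ℕ} {T : ℝ}, 0 < T → T < 1 →
      |(DD : ℝ) * F - ev B T| ≤ E * (1 - T) ^ h →
      |((kB * DD : ℕ) : ℝ) * F - PE.ev (fT T) (.mul (.c (Int.ofNat kB)) (hPE B))|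
        ≤ ((kB * E : ℕ) : ℝ) * (1 - T) ^ h := by
    intro F B E h T h0 h1 hh
    rw [PE.ev_mul, PE.ev_c, ev_hPE, Int.ofNat_eq_natCast, Int.cast_natCast]
    push_cast
    have e1 : (kB : ℝ) * DD * F - kB * ev B T = kB * (DD * F - ev B T) := by ring
    rw [e1, abs_mul, abs_of_pos hkBR, mul_assoc]
    exact mul_le_mul_of_nonneg_left hh hkBR.le
  have herr2 : ∀ {p : List ℤ} {T : ℝ},
      |((kB * DD : ℕ) : ℝ) * (ev p T / c0) - PE.ev (fT T) (.mul (.c (Int.ofNat kF)) (hPE p))|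
        ≤ ((0 : ℕ) : ℝ) * (1 - T) ^ 0 := by
    intro p T
    rw [PE.ev_mul, PE.ev_c, ev_hPE, Int.ofNat_eq_natCast, Int.cast_natCast]
    push_cast
    have e1 : (kB : ℝ) * DD * (ev p T / c0) - kF * ev p T = 0 := by
      rw [hkR]
      field_simp
      ring
    rw [e1, abs_zero, zero_mul]
  refine hpos_Z (dn := .mul (.c (Int.ofNat c0)) (hPE dl)) (fun T hT => ?_)
    (V := VD dl c0 kB kF lb lf) (R := RD dl c0 kB kF rb rf) ?_ ?_ ?_ ?_ (n := 4) (b := bf) ?_ ?_ ?_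
    hct htr (D := ((kB * DD : ℕ) : ℝ)) (by exact_mod_cast Nat.mul_pos hkB hDD) ?_ ?_ ?_ herr hQ
  · rw [hdn]
    exact mul_pos hc0R (hdl T hT)
  · unfold lVD VD
    rw [List.map_append, List.map_map, List.map_map]
    rfl
  · unfold lRD RD
    rw [List.map_append, List.map_map, List.map_map]
    rfl
  · refine List.all_eq_true.2 fun u hu => ?_
    unfold VD at hu
    rcases List.mem_append.1 hu with hu | hu
    · obtain ⟨x, hx, rfl⟩ := List.mem_map.1 hu
      have := List.all_eq_true.1 o1 x hx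
      simp only [VBz.z, only4_rP, only4_mulc _ _ (only4_hPE _), Bool.and_true]
      exact decide_eq_true (Nat.le_of_ble_eq_true this)
    · obtain ⟨x, hx, rfl⟩ := List.mem_map.1 hu
      have := List.all_eq_true.1 o2 x hx
      simp only [VFz.z, List.all_cons, List.all_nil, only4_mul (only4_hPE _) (only4_hPE _),
        only4_mulc _ _ (only4_hPE _), Bool.and_true]
      exact decide_eq_true (Nat.le_of_ble_eq_true this)
  · refine List.all_eq_true.2 fun u hu => ?_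
    unfold RD at hu
    rcases List.mem_append.1 hu with hu | hu
    · obtain ⟨x, hx, rfl⟩ := List.mem_map.1 hu
      have := List.all_eq_true.1 o3 x hx
      simp only [RBz.z, only4_rP, only4_mulc _ _ (only4_hPE _), Bool.and_true]
      exact decide_eq_true (Nat.le_of_ble_eq_true this)
    · obtain ⟨x, hx, rfl⟩ := List.mem_map.1 hu
      have := List.all_eq_true.1 o4 x hx
      simp only [RFz.z, List.all_cons, List.all_nil, only4_mul (only4_hPE _) (only4_hPE _),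
        only4_mulc _ _ (only4_hPE _), Bool.and_true]
      exact decide_eq_true (Nat.le_of_ble_eq_true this)
  · intro T hT u hu
    have hd := hdl T hT
    unfold lVD at hu
    rcases List.mem_append.1 hu with hu | hu
    · obtain ⟨x, hx, rfl⟩ := List.mem_map.1 hu
      simp only [VBz.z, VBz.g, sum_rP, hdn]
      field_simp
    · obtain ⟨x, hx, rfl⟩ := List.mem_map.1 hu
      simp only [VFz.z, VFz.g, sum_single, hdn, PE.ev_mul, ev_hPE]
      field_simp
  · intro T hT u hu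
    have hd := hdl T hT
    unfold lVD at hu
    rcases List.mem_append.1 hu with hu | hu
    · obtain ⟨x, hx, rfl⟩ := List.mem_map.1 hu
      simp only [VBz.z, VBz.g', sum_rP, hdn]
      field_simp
    · obtain ⟨x, hx, rfl⟩ := List.mem_map.1 hu
      simp only [VFz.z, VFz.g', sum_single, hdn, PE.ev_mul, ev_hPE]
      field_simp
  · intro T hT u hu
    have hd := hdl T hT
    unfold lRD at hu
    rcases List.mem_append.1 hu with hu | hu
    · obtain ⟨x, hx, rfl⟩ := List.mem_map.1 hu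
      simp only [RBz.z, RBz.f, sum_rP, hdn]
      field_simp
    · obtain ⟨x, hx, rfl⟩ := List.mem_map.1 hu
      simp only [RFz.z, RFz.f, sum_single, hdn, PE.ev_mul, ev_hPE]
      field_simp
  · intro T hT u hu hnz
    unfold lVD at hu
    rcases List.mem_append.1 hu with hu | hu
    · obtain ⟨x, hx, rfl⟩ := List.mem_map.1 hu
      exact herr1 hT.1 hT.2 (hb0 x hx hnz T hT.1 hT.2)
    · obtain ⟨x, hx, rfl⟩ := List.mem_map.1 hu
      exact herr2
  · intro T hT u hu hnz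
    unfold lVD at hu
    rcases List.mem_append.1 hu with hu | hu
    · obtain ⟨x, hx, rfl⟩ := List.mem_map.1 hu
      exact herr1 hT.1 hT.2 (hb1 x hx hnz T hT.1 hT.2)
    · obtain ⟨x, hx, rfl⟩ := List.mem_map.1 hu
      exact herr2
  · intro T hT u hu hnz
    unfold lRD at hu
    rcases List.mem_append.1 hu with hu | hu
    · obtain ⟨x, hx, rfl⟩ := List.mem_map.1 hu
      exact herr1 hT.1 hT.2 (hbr x hx hnz T hT.1 hT.2)
    · obtain ⟨x, hx, rfl⟩ := List.mem_map.1 hu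
      exact herr2

/-- the value column in the form of the value terms -/
def toVE (x : VZ × (ℝ → ℝ) × (ℝ → ℝ) × ℕ × ℝ) : VE :=
  ⟨x.1.K, x.2.1, x.2.2.1, x.2.2.2.1, x.2.2.2.2, [], []⟩

/-- the list of value terms -/
theorem lGZ_eq (lV : List (VZ × (ℝ → ℝ) × (ℝ → ℝ) × ℕ × ℝ)) : lGZ lV = lG (lV.map toVE) := by
  induction lV with
  | nil => rfl
  | cons x l ih =>
    have e1 : lGZ (x :: l) = gZ x ++ lGZ l := rfl
    have e2 : lG ((x :: l).map toVE) = gZ x ++ lG (l.map toVE) := rfl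
    rw [e1, e2, ih]

/-- the value columns of the data in the form of the value terms -/
theorem lVD_VE (dl : List ℤ) (c0 kB kF : ℕ) (lb : List VBz) (lf : List VFz) (κ : VBz → ℕ × ℝ)
    (κ' : VFz → ℕ × ℝ) : (lVD dl c0 kB kF lb lf κ κ').map toVE
      = (lb.map fun x => (⟨x.K, x.g dl, x.g' dl, (κ x).1, (κ x).2, [], []⟩ : VE))
        ++ lf.map fun x => (⟨x.K, x.g c0, x.g' c0, (κ' x).1, (κ' x).2, [], []⟩ : VE) := by
  unfold lVD
  rw [List.map_append, List.map_map, List.map_map]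
  rfl

end

end Vale.Agent.P224.S15
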