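import Vale.Agent.P224.SP.Left5
import Vale.Agent.P224.S15.Fun15

/-!
Polynomial models at `T = 0` for `m = 15`: on `(0, 1/4]`, with remainder a multiple of `T ^ 24`.
-/

namespace Vale.Agent.P224.S15

open Set Filter Real
open Vale.Agent.P224.SP (qR qD qL qU qL_eq_qU Ap SL wL evq ev ev_cons ev_nil ap_of_evq sqL ev_sqL
  sqrt_encl qU_encl)
open scoped Topology

/-- regular part of `l1` -/
noncomputable def lam1 (T : ℝ) : ℝ := Real.log ((qD (-16 / 15) T + y1 T) / 2)

/-- regular part of `L0` -/
noncomputable def lam0 (T : ℝ) : ℝ := Real.log ((qD (-226 / 225) (T ^ 2) + y12 T) / 2)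

/-- regular part of `L13` -/
noncomputable def lam3 (T : ℝ) : ℝ := Real.log ((qD (14 / 15) T + b13 T) / 2)

lemma lam1_eq (T : ℝ) : lam1 T = qU (-16 / 15) (1 / 15) T := rfl
lemma lam0_eq (T : ℝ) : lam0 T = qU (-226 / 225) (1 / 225) (T ^ 2) := rfl
lemma lam3_eq (T : ℝ) : lam3 T = qU (14 / 15) (-1 / 15) T := rfl

/-- `f1 = y1 (lam1 + log (30 / 7) - log T)` -/
lemma f1_left {T : ℝ} (h0 : 0 < T) (h1 : T < 1) :
    f1 T = y1 T * (lam1 T + Real.log (30 / 7) - Real.log T) := by
  unfold f1 l1
  rw [qL_eq_qU (by norm_num) h0 (qR_1_pos h0 h1) (qD_1_pos h1.le), lam1_eq]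
  have e : (2 : ℝ) / (7 / 15) = 30 / 7 := by norm_num
  rw [e]
  ring

/-- `f2 = y12 (lam0 + log (225 / 56) - 2 log T)` -/
lemma f2_left {T : ℝ} (h0 : 0 < T) (h1 : T < 1) :
    f2 T = y12 T * (lam0 T + Real.log (225 / 56) - 2 * Real.log T) := by
  unfold f2 L0
  rw [qL_eq_qU (by norm_num) (by positivity) (qR_12_pos h0 h1) (qD_12_pos h0 h1.le), lam0_eq,
    Real.log_pow]
  have e : (2 : ℝ) / (112 / 225) = 225 / 56 := by norm_num
  rw [e]
  push_cast
  ring

/-- `f3 = b13 (lam3 + log (15 / 4) - log T)` -/
lemma f3_left {T : ℝ} (h0 : 0 < T) (h1 : T ≤ 1) :
    f3 T = b13 T * (lam3 T + Real.log (15 / 4) - Real.log T) := by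
  have h3 : 0 < qR (14 / 15) (-1 / 15) T := by
    first
      | exact qR_3_pos h0 h1
      | exact qR_3_pos h0
  unfold f3 L13
  rw [qL_eq_qU (by norm_num) h0 h3 (qD_3_pos h0), lam3_eq]
  have e : (2 : ℝ) / (8 / 15) = 15 / 4 := by norm_num
  rw [e]
  ring

/-- Taylor coefficients at `0` (times `dY1`) -/
def cY1 : List ℤ :=
  [39226324511250000000000000000000, -20920706406000000000000000000000,
  -4271310891225000000000000000000, -2278032475320000000000000000000,
  -1447499802026250000000000000000, -1020052319504400000000000000000,
  -767791862202645000000000000000, -604623567579192000000000000000,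
  -492015764310189525000000000000, -410475187494426600000000000000,
  -349203434327137939500000000000, -301788609198603357600000000000,
  -264209196869006236785000000000, -233828749394415969192000000000,
  -208854517682495834446500000000, -188029470340827149378400000000,
  -170448868288331053366601250000, -155446693140135377033802000000,
  -142522940609891754579350775000, -131295706247465000876061000000,
  -121468796862938268104883642750, -112809339392959903596681265200,
  -105131988425742488744602017495, -98287586175641211757128894824]

/-- common denominator -/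
def dY1 : ℤ := 39226324511250000000000000000000

/-- remainder constant -/
def eY1 : ℤ := 196131622556250000000000000000

/-- Taylor coefficients at `0` (times `dY12`) -/
def cY12 : List ℤ :=
  [74818276426792144775390625, 0, -37575401049900054931640625, 0, -9269337871582031250000000, 0,
  -4655267464394531250000000, 0, -2912174199457031250000000, 0, -2039306006081531250000000, 0,
  -1529805693027071250000000, 0, -1202153176132268850000000, 0, -976841104040648658000000, 0,
  -814090248045484376400000, 0, -692013101674262642870400, 0, -597672487802132533022848, 0]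

/-- common denominator -/
def dY12 : ℤ := 74818276426792144775390625

/-- remainder constant -/
def eY12 : ℤ := 598546211414337158203125

/-- Taylor coefficients at `0` (times `dB13`) -/
def cB13 : List ℤ :=
  [74818276426792144775390625, 34915195665836334228515625, -10640821536254882812500000,
  4965716716918945312500000, -3074015110473632812500000, 2140775651293945312500000,
  -1601010126254882812500000, 1255627450731445312500000, -1018892905398632812500000,
  848277924231445312500000, -720515488808882812500000, 621907778214745312500000,
  -543917126649152812500000, 480973000885441312500000, -429301731181394812500000,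
  386265347572928512500000, -349969950261094252500000, 319024290481091968500000,
  -292385779092772809300000, 269259314124304595700000, -249029068675906760148000,
  231211439373841359501600, -215421925470105147332640, 201351386533270946484512]

/-- common denominator -/
def dB13 : ℤ := 74818276426792144775390625

/-- remainder constant -/
def eB13 : ℤ := 224454829280376434326171

/-- Taylor coefficients at `0` (times `dLa1`) -/
def cLa1 : List ℤ :=
  [0, -20743379709075223200000000000000000000, -7649121267721488555000000000000000000,
  -4225503274070878800000000000000000000, -2766624260156577946125000000000000000,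
  -1989551327029983741024000000000000000, -1518648330907520902089000000000000000,
  -1208095263503936776425600000000000000, -990642491088740639906006250000000000,
  -831412095101505643405680000000000000, -710696991160313596070491860000000000,
  -616608185449141230574057920000000000, -541591804778438590330619965500000000,
  -480642229186968826176612336000000000, -430324849663800014902160110500000000,
  -388212807702516776900169657408000000, -352547767245824064307077474571031250,
  -322027841983334906845918001109600000, -295670686244816874710914529258925000,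
  -272722603262323883096011394931120000, -252596702907221434640337130024187835,
  -234829898991940972889512810715774240, -219052420812224323086074235537271931,
  -204965817202084424620888850271519344]

/-- common denominator -/
def dLa1 : ℤ := 38893836954516043500000000000000000000

/-- remainder constant -/
def eLa1 : ℤ := 311150695636128348000000000000000000

/-- Taylor coefficients at `0` (times `dLa0x`) -/
def cLa0x : List ℤ :=
  [0, -7715482348912811279296875000, -2889095366876083374023437500, -1604566320924517822265625000,
  -1052861474264617858886718750, -758006343370199330859375000, -579006443772900800507812500,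
  -460827447175804233628125000, -378013846534892735998359375, -317339394046989658696275000,
  -271321427298643062133166220, -235441576651334097158397416]

/-- common denominator -/
def dLa0x : ℤ := 15362686092967987060546875000

/-- remainder constant -/
def eLa0x : ℤ := 307253721859359741210937500

/-- Taylor coefficients at `0` (times `dLa3`) -/
def cLa3 : List ℤ :=
  [0, 276953998496106266784667968750000, -106825113705640988616943359375000,
  59493821899163568420410156250000, -39110593755878710372924804687500,
  28186121304723727560058593750000, -21544201069326313552001953125000,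
  17154717582304597314550781250000, -14076639445734983536853027343750,
  11820267437817910927324218750000, -10108252108773972129773671875000,
  8772977779229394498196406250000, -7707801564342775273417101562500,
  6841978837072232011020843750000, -6126924845824471766575265625000,
  5528284610423791107144503250000, -5021151204310567480400042671875,
  4587073392764375380224507150000, -4212122182805781443066642775000,
  3885606292599529446708289530000, -3599197604372222748934114936860,
  3346322696943972754139224453360, -3121731234327711478438893394376,
  2921184441068576680276477998800]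

/-- common denominator -/
def dLa3 : ℤ := 593472853920227714538574218750000

/-- remainder constant -/
def eLa3 : ℤ := 2967364269601138572692871093750

set_option maxRecDepth 20000 in
theorem ap_y1 : Ap SL wL y1 dY1 cY1 eY1 := by
  intro T hT
  have hA : ((0 : ℤ) : ℝ) ≤ (4 : ℤ) * T := by
    push_cast
    linarith [hT.1]
  have hB : ((4 : ℤ) : ℝ) * T ≤ (1 : ℤ) := by
    push_cast
    linarith [hT.2]
  have h := sqrt_encl (y := y1 T) (R := qR (-16 / 15) (1 / 15) T) (RL := [15, -16, 1]) (dR := 15) (by norm_num)
    (T := T) (by unfold qR evq; simp only [ev_cons, ev_nil]; push_cast; ring) rfl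
    (PL := cY1 ++ [-eY1]) (QL := cY1 ++ [eY1]) (dP := dY1) (A := 0) (B := 1) (d := 4)
    (by decide +kernel) hA hB (by decide +kernel) (by decide +kernel) (by decide +kernel)
  exact ap_of_evq (by decide +kernel) h.1 h.2 rfl

set_option maxRecDepth 20000 in
theorem ap_y12 : Ap SL wL y12 dY12 cY12 eY12 := by
  intro T hT
  have hA : ((0 : ℤ) : ℝ) ≤ (4 : ℤ) * T := by
    push_cast
    linarith [hT.1]
  have hB : ((4 : ℤ) : ℝ) * T ≤ (1 : ℤ) := by
    push_cast
    linarith [hT.2]
  have h := sqrt_encl (y := y12 T) (R := qR (-226 / 225) (1 / 225) (T ^ 2)) (RL := [225, 0, -226, 0, 1]) (dR := 225) (by norm_num)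
    (T := T) (by unfold qR evq; simp only [ev_cons, ev_nil]; push_cast; ring) rfl
    (PL := cY12 ++ [-eY12]) (QL := cY12 ++ [eY12]) (dP := dY12) (A := 0) (B := 1) (d := 4)
    (by decide +kernel) hA hB (by decide +kernel) (by decide +kernel) (by decide +kernel)
  exact ap_of_evq (by decide +kernel) h.1 h.2 rfl

set_option maxRecDepth 20000 in
theorem ap_b13 : Ap SL wL b13 dB13 cB13 eB13 := by
  intro T hT
  have hA : ((0 : ℤ) : ℝ) ≤ (4 : ℤ) * T := by
    push_cast
    linarith [hT.1]
  have hB : ((4 : ℤ) : ℝ) * T ≤ (1 : ℤ) := by
    push_cast
    linarith [hT.2]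
  have h := sqrt_encl (y := b13 T) (R := qR (14 / 15) (-1 / 15) T) (RL := [15, 14, -1]) (dR := 15) (by norm_num)
    (T := T) (by unfold qR evq; simp only [ev_cons, ev_nil]; push_cast; ring) rfl
    (PL := cB13 ++ [-eB13]) (QL := cB13 ++ [eB13]) (dP := dB13) (A := 0) (B := 1) (d := 4)
    (by decide +kernel) hA hB (by decide +kernel) (by decide +kernel) (by decide +kernel)
  exact ap_of_evq (by decide +kernel) h.1 h.2 rfl

set_option maxRecDepth 20000 in
theorem ap_lam1 : Ap SL wL lam1 dLa1 cLa1 eLa1 := by
  intro T hT
  rw [lam1_eq]
  have h := qU_encl (b := -16 / 15) (c := 1 / 15) (RL := [15, -16, 1]) (dR := 15) (by norm_num)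
    (fun T => by unfold qR evq; simp only [ev_cons, ev_nil]; push_cast; ring) (e := 1 / 4)
    (fun x hx => by rw [qR_1]; exact mul_pos (by linarith [hx.2]) (by linarith [hx.1, hx.2])) (fun x hx => by unfold qD; linarith [hx.2])
    (VL := cLa1 ++ [eLa1]) (WL := cLa1 ++ [-eLa1]) (dV := dLa1) (B := 1) (d := 4)
    (by decide +kernel) (by norm_num) (by norm_num) (by decide +kernel) (by decide +kernel)
    (by decide +kernel) (by decide +kernel) (by decide +kernel) (T := T) ⟨hT.1.le, hT.2⟩
  exact ap_of_evq (by decide +kernel) h.1 h.2 rfl

set_option maxRecDepth 20000 in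
theorem ap_lam3 : Ap SL wL lam3 dLa3 cLa3 eLa3 := by
  intro T hT
  rw [lam3_eq]
  have h := qU_encl (b := 14 / 15) (c := -1 / 15) (RL := [15, 14, -1]) (dR := 15) (by norm_num)
    (fun T => by unfold qR evq; simp only [ev_cons, ev_nil]; push_cast; ring) (e := 1 / 4)
    (fun x hx => by rw [qR_3]; exact mul_pos (by linarith [hx.1]) (by linarith [hx.1, hx.2])) (fun x hx => by unfold qD; linarith [hx.1])
    (VL := cLa3 ++ [eLa3]) (WL := cLa3 ++ [-eLa3]) (dV := dLa3) (B := 1) (d := 4)
    (by decide +kernel) (by norm_num) (by norm_num) (by decide +kernel) (by decide +kernel)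
    (by decide +kernel) (by decide +kernel) (by decide +kernel) (T := T) ⟨hT.1.le, hT.2⟩
  exact ap_of_evq (by decide +kernel) h.1 h.2 rfl

/-- Taylor coefficients at `0` (times `dLa0`) -/
def cLa0 : List ℤ := sqL cLa0x

/-- common denominator -/
def dLa0 : ℤ := dLa0x

/-- remainder constant -/
def eLa0 : ℤ := eLa0x

set_option maxRecDepth 20000 in
theorem ap_lam0 : Ap SL wL lam0 dLa0 cLa0 eLa0 := by
  intro T hT
  rw [lam0_eq]
  have hT2 : T ^ 2 ∈ Icc (0 : ℝ) (1 / 16) := by
    refine ⟨sq_nonneg T, ?_⟩
    have h1 := hT.1
    have h2 := hT.2
    nlinarith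
  have h := qU_encl (b := -226 / 225) (c := 1 / 225) (RL := [225, -226, 1]) (dR := 225) (by norm_num)
    (fun T => by unfold qR evq; simp only [ev_cons, ev_nil]; push_cast; ring) (e := 1 / 16)
    (fun x hx => by unfold qR; nlinarith [hx.1, hx.2]) (fun x hx => by unfold qD; linarith [hx.2])
    (VL := cLa0x ++ [eLa0x]) (WL := cLa0x ++ [-eLa0x]) (dV := dLa0x) (B := 1) (d := 16)
    (by decide +kernel) (by norm_num) (by norm_num) (by decide +kernel) (by decide +kernel)
    (by decide +kernel) (by decide +kernel) (by decide +kernel) (T := T ^ 2) hT2
  have h3 := ap_of_evq (l := cLa0x) (E := eLa0x) (D := dLa0x) (w := (T ^ 2) ^ 12)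
    (by decide +kernel) h.1 h.2 rfl
  unfold cLa0 dLa0 eLa0 SP.wL
  rw [ev_sqL]
  rw [← pow_mul] at h3
  exact h3

end Vale.Agent.P224.S15
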