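import Vale.Agent.P224.S15.Der
import Vale.Agent.P224.SP.Right5

/-!
The limits at `T = 0` of the combinations `n0 + n1 f1 + n2 f2 + n3 F3` in which the logarithms
cancel; quotients by a polynomial; measurability.
-/

namespace Vale.Agent.P224.S15

open Set Filter Real Vale.Agent.P224.SP
open scoped Topology

/-- the regular part of the logarithm -/
noncomputable def qG (b c k T : ℝ) : ℝ := Real.log (qD b T + √(qR b c T)) - Real.log k

lemma continuousAt_qG (b c k : ℝ) : ContinuousAt (qG b c k) 0 := by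
  unfold qG
  refine ContinuousAt.sub (ContinuousAt.log ?_ ?_) continuousAt_const
  · exact ((continuous_qD b).add (continuous_qR b c).sqrt).continuousAt
  · rw [qD_zero, qR_zero, Real.sqrt_one]; norm_num

lemma qG_zero (b c k : ℝ) : qG b c k 0 = Real.log 2 - Real.log k := by
  unfold qG
  rw [qD_zero, qR_zero, Real.sqrt_one]
  norm_num

lemma f1_qG {T : ℝ} (h0 : 0 < T) (h1 : T < 1) :
    f1 T = y1 T * (qG (-16 / 15) (1 / 15) (7 / 15) T - Real.log T) := by
  unfold f1 l1
  rw [qL_eq (by norm_num) h0 (qR_1_pos h0 h1) (qD_1_pos h1.le), qG]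

lemma f2_qG {T : ℝ} (h0 : 0 < T) (h1 : T < 1) :
    f2 T = y12 T * (qG (-226 / 225) (1 / 225) (112 / 225) (T ^ 2) - 2 * Real.log T) := by
  unfold f2 L0
  rw [qL_eq (by norm_num) (by positivity) (qR_12_pos h0 h1) (qD_12_pos h0 h1.le), qG,
    Real.log_pow]
  push_cast
  ring

lemma F3_qG {T : ℝ} (h0 : 0 < T) (h1 : T < 1) :
    F3 T = b13 T * (qG (14 / 15) (-1 / 15) (8 / 15) T - Real.log T - L13 1 + cst15) := by
  unfold F3
  have h2 : L13 T = qG (14 / 15) (-1 / 15) (8 / 15) T - Real.log T := by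
    unfold L13
    rw [qL_eq (by norm_num) h0 (qR_3_pos h0 h1.le) (qD_3_pos h0), qG]
  rw [h2]

lemma continuous_y1' : Continuous y1 := (continuous_qR _ _).sqrt
lemma continuous_b13' : Continuous b13 := (continuous_qR _ _).sqrt
lemma continuous_y12' : Continuous y12 := ((continuous_qR _ _).comp (continuous_pow 2)).sqrt

/-- the coefficient of `- log T` -/
noncomputable def lgc (N : Q4) (T : ℝ) : ℝ :=
  ev N.n1 T * y1 T + 2 * (ev N.n2 T * y12 T) + ev N.n3 T * b13 T

lemma y1_at0 : y1 0 = 1 := by unfold y1; rw [qR_zero, Real.sqrt_one]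
lemma b13_at0 : b13 0 = 1 := by unfold b13; rw [qR_zero, Real.sqrt_one]
lemma y12_at0 : y12 0 = 1 := by
  unfold y12; rw [zero_pow two_ne_zero, qR_zero, Real.sqrt_one]

lemma differentiableAt_sqrtR (b c : ℝ) {f : ℝ → ℝ} (hf : DifferentiableAt ℝ f 0) (h0 : f 0 = 0) :
    DifferentiableAt ℝ (fun T => √(qR b c (f T))) 0 := by
  have h1 : DifferentiableAt ℝ (fun T => qR b c (f T)) 0 := by
    unfold qR
    fun_prop
  refine h1.sqrt ?_
  rw [h0, qR_zero]
  exact one_ne_zero

lemma tendsto_lgc {N : Q4} (h : lgc N 0 = 0) :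
    Tendsto (fun T => lgc N T * Real.log T) (𝓝[>] 0) (𝓝 0) := by
  have d1 : DifferentiableAt ℝ y1 0 := differentiableAt_sqrtR _ _ differentiableAt_id rfl
  have d3 : DifferentiableAt ℝ b13 0 := differentiableAt_sqrtR _ _ differentiableAt_id rfl
  have d2 : DifferentiableAt ℝ y12 0 :=
    differentiableAt_sqrtR (f := fun T => T ^ 2) _ _ (by fun_prop) (by norm_num)
  have dd : DifferentiableAt ℝ (lgc N) 0 := by
    unfold lgc
    exact (((hasDerivAt_ev N.n1 0).differentiableAt.mul d1).add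
      (((hasDerivAt_ev N.n2 0).differentiableAt.mul d2).const_mul 2)).add
      ((hasDerivAt_ev N.n3 0).differentiableAt.mul d3)
  have h1 : (fun T => lgc N T) =O[𝓝 0] fun T => T := by
    have h2 := dd.hasDerivAt.isBigO_sub
    simpa [h] using h2
  have h3 : (fun T => lgc N T * Real.log T) =O[𝓝 0] fun T => T * Real.log T :=
    h1.mul (Asymptotics.isBigO_refl _ _)
  have h4 : Tendsto (fun T : ℝ => T * Real.log T) (𝓝 0) (𝓝 0) := by
    have h5 := Real.continuous_mul_log.tendsto 0
    simpa using h5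
  exact (h3.trans_tendsto h4).mono_left nhdsWithin_le_nhds

/-- the limit at `T = 0` -/
noncomputable def lim0 (N : Q4) : ℝ :=
  ev N.n0 0 + ev N.n1 0 * (Real.log 2 - Real.log (7 / 15))
    + ev N.n2 0 * (Real.log 2 - Real.log (112 / 225))
    + ev N.n3 0 * (Real.log 2 - Real.log (8 / 15) - L13 1 + cst15)

lemma tendsto_G4_zero {N : Q4} (h : lgc N 0 = 0) :
    Tendsto (G4 N) (𝓝[>] 0) (𝓝 (lim0 N)) := by
  have c1 : Tendsto (qG (-16 / 15) (1 / 15) (7 / 15)) (𝓝[>] 0)
      (𝓝 (Real.log 2 - Real.log (7 / 15))) := by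
    have := (continuousAt_qG (-16 / 15) (1 / 15) (7 / 15)).tendsto
    rw [qG_zero] at this
    exact this.mono_left nhdsWithin_le_nhds
  have c3 : Tendsto (qG (14 / 15) (-1 / 15) (8 / 15)) (𝓝[>] 0)
      (𝓝 (Real.log 2 - Real.log (8 / 15))) := by
    have := (continuousAt_qG (14 / 15) (-1 / 15) (8 / 15)).tendsto
    rw [qG_zero] at this
    exact this.mono_left nhdsWithin_le_nhds
  have hsq : Tendsto (fun T : ℝ => T ^ 2) (𝓝[>] 0) (𝓝 0) := by
    have h2 := (continuous_pow 2).tendsto (0 : ℝ)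
    rw [zero_pow two_ne_zero] at h2
    exact h2.mono_left nhdsWithin_le_nhds
  have c2 : Tendsto (fun T : ℝ => qG (-226 / 225) (1 / 225) (112 / 225) (T ^ 2)) (𝓝[>] 0)
      (𝓝 (Real.log 2 - Real.log (112 / 225))) := by
    have := (continuousAt_qG (-226 / 225) (1 / 225) (112 / 225)).tendsto
    rw [qG_zero] at this
    exact this.comp hsq
  have e : ∀ l : List ℤ, Tendsto (ev l) (𝓝[>] 0) (𝓝 (ev l 0)) := fun l =>
    ((continuous_ev l).tendsto 0).mono_left nhdsWithin_le_nhds
  have t1 : Tendsto y1 (𝓝[>] 0) (𝓝 1) := by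
    have := continuous_y1'.tendsto 0
    rw [y1_at0] at this
    exact this.mono_left nhdsWithin_le_nhds
  have t2 : Tendsto y12 (𝓝[>] 0) (𝓝 1) := by
    have := continuous_y12'.tendsto 0
    rw [y12_at0] at this
    exact this.mono_left nhdsWithin_le_nhds
  have t3 : Tendsto b13 (𝓝[>] 0) (𝓝 1) := by
    have := continuous_b13'.tendsto 0
    rw [b13_at0] at this
    exact this.mono_left nhdsWithin_le_nhds
  have key := ((((e N.n0).add (((e N.n1).mul t1).mul c1)).add (((e N.n2).mul t2).mul c2)).add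
    (((e N.n3).mul t3).mul ((c3.sub_const (L13 1)).add_const (cst15)))).sub (tendsto_lgc h)
  have hval : ev N.n0 0 + ev N.n1 0 * 1 * (Real.log 2 - Real.log (7 / 15))
      + ev N.n2 0 * 1 * (Real.log 2 - Real.log (112 / 225))
      + ev N.n3 0 * 1 * (Real.log 2 - Real.log (8 / 15) - L13 1 + cst15) - 0 = lim0 N := by
    unfold lim0
    ring
  rw [hval] at key
  refine key.congr' ?_
  have h0 : ∀ᶠ T in 𝓝[>] (0 : ℝ), T ∈ Ioo (0 : ℝ) 1 := Ioo_mem_nhdsGT one_pos
  filter_upwards [h0] with T hT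
  unfold G4 lgc
  rw [f1_qG hT.1 hT.2, f2_qG hT.1 hT.2, F3_qG hT.1 hT.2]
  ring

/-! ### Measurability -/

lemma measurable_qL (b c k : ℝ) : Measurable (qL b c k) := by
  unfold qL
  have h1 : Measurable fun T => qD b T + √(qR b c T) :=
    ((continuous_qD b).add (continuous_qR b c).sqrt).measurable
  have h2 : Measurable fun T : ℝ => k * T := by fun_prop
  exact (h1.div h2).log

lemma measurable_f1 : Measurable f1 :=
  continuous_y1'.measurable.mul (measurable_qL _ _ _)

lemma measurable_f2 : Measurable f2 :=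
  continuous_y12'.measurable.mul ((measurable_qL _ _ _).comp (by fun_prop))

lemma measurable_F3 : Measurable F3 :=
  continuous_b13'.measurable.mul (((measurable_qL _ _ _).sub_const _).add_const _)

lemma measurable_ev (l : List ℤ) : Measurable (ev l) := (continuous_ev l).measurable

lemma measurable_G4 (N : Q4) : Measurable (G4 N) := by
  unfold G4
  exact (((measurable_ev _).add ((measurable_ev _).mul measurable_f1)).add
    ((measurable_ev _).mul measurable_f2)).add ((measurable_ev _).mul measurable_F3)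

/-! ### Quotients -/

/-- the coefficients of `Del Q (G4 N / Q)'` -/
def dQk (kap : List ℤ) (N : Q4) : Q4 := (dQ0 N).add ((N.mulp kap).smul (-1))

/-- the derivative of `G4 N / Q` -/
theorem hasDerivAt_G4_divL {Ql kap : List ℤ}
    (hk : eqL (mulL DelL (derL Ql)) (mulL kap Ql) = true) (N : Q4) {T : ℝ} (h0 : 0 < T)
    (h1 : T < 1) (hQ : ev Ql T ≠ 0) :
    HasDerivAt (fun T => G4 N T / ev Ql T) (G4 (dQk kap N) T / (Del T * ev Ql T)) T := by
  have h := (hasDerivAt_G4 N h0 h1).fun_div (hasDerivAt_ev Ql T) hQ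
  refine h.congr_deriv ?_
  have hD := (Del_pos h0 h1).ne'
  have h2 := ev_of_eqL hk T
  rw [ev_mulL, ev_mulL, ev_DelL] at h2
  rw [dQk, G4_add, G4_smul, G4_mulp]
  push_cast
  field_simp
  linear_combination (-(G4 N T)) * h2

end Vale.Agent.P224.S15
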