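import Vale.Agent.P224.S15.AsmE

/-!
Columns whose coefficient functions are combinations of the base functions.
-/

namespace Vale.Agent.P224.S15

open Vale.Agent.P224.UE Vale.Agent.P224.POS Vale.Agent.P224.PO Vale.Agent.P224.SO Set
open scoped RealInnerProductSpace

noncomputable section

/-- the values of the variables for a polynomial in `T` -/
def fT (T : ℝ) (i : ℕ) : ℝ := if i = 4 then T else 0

/-- only the variable `T` occurs -/
def only4 (e : PE) : Bool :=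
  PE.rec (motive := fun _ => Bool) (fun _ => true) (fun i => Nat.beq i 4)
    (fun _ _ x y => Bool.rec (motive := fun _ => Bool) false y x)
    (fun _ _ x y => Bool.rec (motive := fun _ => Bool) false y x)
    (fun _ _ x y => Bool.rec (motive := fun _ => Bool) false y x) (fun _ _ x => x) e

lemma ev_only4 {f : ℕ → ℝ} {T : ℝ} (hf : f 4 = T) (e : PE) (h : only4 e = true) :
    PE.ev f e = PE.ev (fT T) e := by
  induction e with
  | c n => rfl
  | v i =>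
    have h1 : Nat.beq i 4 = true := h
    have h2 : i = 4 := Nat.eq_of_beq_eq_true h1
    subst h2
    rw [PE.ev_v, PE.ev_v, hf]
    simp [fT]
  | add a b ha hb =>
    obtain ⟨h1, h2⟩ := band_eq (show Bool.rec (motive := fun _ => Bool) false (only4 b) (only4 a)
      = true from h)
    rw [PE.ev_add, PE.ev_add, ha h1, hb h2]
  | sub a b ha hb =>
    obtain ⟨h1, h2⟩ := band_eq (show Bool.rec (motive := fun _ => Bool) false (only4 b) (only4 a)
      = true from h)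
    rw [PE.ev_sub, PE.ev_sub, ha h1, hb h2]
  | mul a b ha hb =>
    obtain ⟨h1, h2⟩ := band_eq (show Bool.rec (motive := fun _ => Bool) false (only4 b) (only4 a)
      = true from h)
    rw [PE.ev_mul, PE.ev_mul, ha h1, hb h2]
  | pow a n ha => rw [PE.ev_pow, PE.ev_pow, ha h]

/-- the combination of the base functions -/
def cmb (n : ℕ) (b : ℕ → ℝ → ℝ) (Dn : ℝ → ℝ) (r : List PE) (T : ℝ) : ℝ :=
  (∑ p ∈ Finset.range n, b p T * PE.ev (fT T) (r.getD p (.c 0))) / Dn T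

/-- the combination of the base functions without denominator -/
def cmb1 (n : ℕ) (b : ℕ → ℝ → ℝ) (s : List PE) (T : ℝ) : ℝ :=
  ∑ p ∈ Finset.range n, b p T * PE.ev (fT T) (s.getD p (.c 0))

/-- a value column from the base functions: exponents, the coefficients `s` of `g`, the
coefficients `r1` of `Dn g'`, the power of `1 - T`, the limit -/
def mkV (n : ℕ) (b : ℕ → ℝ → ℝ) (dn : PE) (x : VK × List PE × List PE × ℕ × ℝ) : VE :=
  ⟨x.1, cmb1 n b x.2.1, cmb n b (fun T => PE.ev (fT T) dn) x.2.2.1, x.2.2.2.1, x.2.2.2.2,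
    x.2.1.map (.mul dn), x.2.2.1⟩

/-- a row column from the base functions -/
def mkR (n : ℕ) (b : ℕ → ℝ → ℝ) (Dn : ℝ → ℝ) (x : RK × List PE) : RE :=
  ⟨x.1, cmb n b Dn x.2, x.2⟩

lemma cmb_eq {n : ℕ} {b : ℕ → ℝ → ℝ} {Dn : ℝ → ℝ} {r : List PE} {T : ℝ} (hD : Dn T ≠ 0)
    {f : ℕ → ℝ} (hf : f 4 = T) (hr : (r.all only4) = true) :
    Dn T * cmb n b Dn r T = ∑ p ∈ Finset.range n, b p T * PE.ev f (r.getD p (.c 0)) := by
  unfold cmb
  rw [mul_div_cancel₀ _ hD]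
  refine Finset.sum_congr rfl fun p _ => ?_
  rw [ev_only4 hf]
  by_cases hp : p < r.length
  · rw [List.getD_eq_getElem _ _ hp]
    exact List.all_eq_true.1 hr _ (List.getElem_mem hp)
  · rw [List.getD_eq_default _ _ (not_lt.1 hp)]
    rfl

lemma cmb1_eq {n : ℕ} {b : ℕ → ℝ → ℝ} {dn : PE} {s : List PE} {T : ℝ}
    {f : ℕ → ℝ} (hf : f 4 = T) (hd : only4 dn = true) (hs : (s.all only4) = true) :
    PE.ev (fT T) dn * cmb1 n b s T
      = ∑ p ∈ Finset.range n, b p T * PE.ev f ((s.map (.mul dn)).getD p (.c 0)) := by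
  unfold cmb1
  rw [Finset.mul_sum]
  refine Finset.sum_congr rfl fun p _ => ?_
  by_cases hp : p < s.length
  · have h1 : (s.map (PE.mul dn)).getD p (.c 0) = .mul dn (s.getD p (.c 0)) := by
      rw [List.getD_eq_getElem _ _ hp, List.getD_eq_getElem _ _ (by simpa using hp),
        List.getElem_map]
    have h2 : only4 (s.getD p (.c 0)) = true := by
      rw [List.getD_eq_getElem _ _ hp]
      exact List.all_eq_true.1 hs _ (List.getElem_mem hp)
    rw [h1, PE.ev_mul, ev_only4 hf _ hd, ev_only4 hf _ h2]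
    ring
  · rw [List.getD_eq_default _ _ (not_lt.1 hp),
      List.getD_eq_default _ _ (by simpa using hp)]
    simp

lemma map_mkV (n : ℕ) (b : ℕ → ℝ → ℝ) (dn : PE) (l : List (VK × List PE × List PE × ℕ × ℝ)) :
    ((l.map (mkV n b dn)).map fun x => (x.K, x.r0, x.r1))
      = (l.map fun x => (x.1, x.2.1, x.2.2.1)).map fun x => (x.1, x.2.1.map (.mul dn), x.2.2) := by
  rw [List.map_map, List.map_map]
  rfl

lemma map_mkR (n : ℕ) (b : ℕ → ℝ → ℝ) (Dn : ℝ → ℝ) (l : List (RK × List PE)) :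
    ((l.map (mkR n b Dn)).map fun x => (x.K, x.r)) = l := by
  rw [List.map_map]
  exact List.map_id _

/-- the value columns of the polynomial identities -/
def pVd (dn : PE) (l : List (VK × List PE × List PE)) : List (VK × List PE × List PE) :=
  l.map fun x => (x.1, x.2.1.map (.mul dn), x.2.2)

/-- **The pointwise inequality**, coefficient functions from the base functions. -/
theorem hpos_mk {dn : PE} (hdn : only4 dn = true)
    {lV : List (VK × List PE × List PE × ℕ × ℝ)} {pV : List (VK × List PE × List PE)}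
    {pR : List (RK × List PE)} (hpV : (lV.map fun x => (x.1, x.2.1, x.2.2.1)) = pV)
    (hV : (pV.all fun x => decide (x.1.q ≤ 11) && (x.2.1.all only4 && x.2.2.all only4)) = true)
    (hR : (pR.all fun x => decide (x.1.q ≤ 11) && x.2.all only4) = true)
    {l : List Bs} {b : ℕ → ℝ → ℝ} (hb0 : ∀ T, b 0 T = 1) {ω : ℝ → ℝ}
    (hDn : ∀ T ∈ Ioo (0 : ℝ) 1, 0 < PE.ev (fT T) dn) (hω : ∀ T ∈ Ioo (0 : ℝ) 1, 0 ≤ ω T)
    (hid : ∀ f : ℕ → ℝ, (∀ i, 5 ≤ i → f i = 0) → ∀ p < l.length,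
      PE.ev f (Wt (p + 1) (pcols (pVd dn pV) pR)) = PE.ev f (l.getD p Bs.z).q)
    {D : ℝ} (hD : 0 < D)
    (hδ : ∀ T ∈ Ioo (0 : ℝ) 1, ∀ f : ℕ → ℝ, f 4 = T → ∀ p < l.length,
      |D * b (p + 1) T - PE.ev f (l.getD p Bs.z).B|
        ≤ (l.getD p Bs.z).E * ω T
          * (1 - T) ^ (l.getD p Bs.z).h)
    {n2 n3 Dl : ℕ} (herr : errOk n2 n3 l Dl = true)
    {E : Type*} [NormedAddCommGroup E] [InnerProductSpace ℝ E] {H' : ℝ → R9 → ℝ} {HH : PE}
    (hH : ∀ T ∈ Ioo (0 : ℝ) 1, ∀ x N y w : E, ‖x‖ = 1 → ‖N‖ = 1 → ‖y‖ = 1 → ‖w‖ = 1 →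
      ⟪x, N⟫ = 0 → ⟪y, w⟫ = 0 → D * PE.ev (fT T) dn * (4 * √(AT T) * (1 - T * ⟪x, y⟫) ^ 12
        * H' T (dv x N y w 0)) ≤ PE.ev (vT T ⟪x, y⟫ ⟪x, w⟫ ⟪N, y⟫ ⟪N, w⟫) HH)
    (hQ : ∀ T ∈ Ioo (0 : ℝ) 1, ∀ x N y w : E, ‖x‖ = 1 → ‖N‖ = 1 → ‖y‖ = 1 → ‖w‖ = 1 →
      ⟪x, N⟫ = 0 → ⟪y, w⟫ = 0 → PE.ev (vT T ⟪x, y⟫ ⟪x, w⟫ ⟪N, y⟫ ⟪N, w⟫) HH
        ≤ D * PE.ev (vT T ⟪x, y⟫ ⟪x, w⟫ ⟪N, y⟫ ⟪N, w⟫) (Wt 0 (pcols (pVd dn pV) pR))
          + PE.ev (vT T ⟪x, y⟫ ⟪x, w⟫ ⟪N, y⟫ ⟪N, w⟫) (Qs l)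
          - ω T * Dl * PE.ev (vT T ⟪x, y⟫ ⟪x, w⟫ ⟪N, y⟫ ⟪N, w⟫) (pW n2 n3)) :
    ∀ T ∈ Ioo (0 : ℝ) 1, ∀ x N y w : E, ‖x‖ = 1 → ‖N‖ = 1 → ‖y‖ = 1 → ‖w‖ = 1 →
      ⟪x, N⟫ = 0 → ⟪y, w⟫ = 0 →
      gS' ((lG (lV.map (mkV (l.length + 1) b dn))).map GT.v) T (dv x N y w 0)
          + H' T (dv x N y w 0)
        ≤ (OT.Rs 15 (lS (pR.map (mkR (l.length + 1) b fun T => PE.ev (fT T) dn))) T (dv x N y w 0)
          + OT.Rs 15 (lS (pR.map (mkR (l.length + 1) b fun T => PE.ev (fT T) dn))) T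
            (sw9 (dv x N y w 0))) / 2 := by
  have hV1 : ∀ u ∈ lV, u.1.q ≤ 11 ∧ (u.2.1.all only4) = true ∧ (u.2.2.1.all only4) = true := by
    intro u hu
    have h1 : (u.1, u.2.1, u.2.2.1) ∈ pV := by
      rw [← hpV]
      exact List.mem_map_of_mem (f := fun x : VK × List PE × List PE × ℕ × ℝ =>
        (x.1, x.2.1, x.2.2.1)) hu
    have h2 := List.all_eq_true.1 hV _ h1
    rw [Bool.and_eq_true, Bool.and_eq_true, decide_eq_true_eq] at h2
    exact h2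
  have hVq : ∀ u ∈ pV, u.1.q ≤ 11 := by
    intro u hu
    have h2 := List.all_eq_true.1 hV _ hu
    rw [Bool.and_eq_true, decide_eq_true_eq] at h2
    exact h2.1
  refine hpos_of (pV := pVd dn pV) (pR := pR) ((map_mkV _ _ _ lV).trans (by rw [hpV]; rfl))
    (map_mkR _ _ _ pR) (List.all_eq_true.2 fun u hu => ?_) (List.all_eq_true.2 fun u hu => ?_)
    hb0 hDn hω ?_ ?_ ?_ hid hD hδ herr hH hQ
  · obtain ⟨x, hx, rfl⟩ := List.mem_map.1 hu
    exact decide_eq_true (hVq x hx)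
  · have h2 := List.all_eq_true.1 hR _ hu
    rw [Bool.and_eq_true] at h2
    exact h2.1
  · intro T hT f hf x hx
    obtain ⟨u, hu, rfl⟩ := List.mem_map.1 hx
    exact cmb1_eq hf hdn (hV1 u hu).2.1
  · intro T hT f hf x hx
    obtain ⟨u, hu, rfl⟩ := List.mem_map.1 hx
    exact cmb_eq (Dn := fun T => PE.ev (fT T) dn) (hDn T hT).ne' hf (hV1 u hu).2.2
  · intro T hT f hf x hx
    obtain ⟨u, hu, rfl⟩ := List.mem_map.1 hx
    have h2 := List.all_eq_true.1 hR _ hu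
    rw [Bool.and_eq_true] at h2
    exact cmb_eq (Dn := fun T => PE.ev (fT T) dn) (hDn T hT).ne' hf h2.2

end

end Vale.Agent.P224.S15
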