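import Vale.Agent.P224.S15.AsmZ
import Vale.Agent.P224.OT.Cst5
import Vale.Agent.P224.OT.Sharp

/-!
Value columns in dimension fifteen: regularity, exponents, flux, values at `T = 0`.
-/

namespace Vale.Agent.P224.S15

open Vale.Agent.P224.UE Vale.Agent.P224.POS Vale.Agent.P224.PO Vale.Agent.P224.SO Set Filter
open scoped RealInnerProductSpace Topology

noncomputable section

/-! ### The coefficient of a value column -/

lemma hasDerivAt_AT (T : ℝ) : HasDerivAt AT (-16 + 2 * T) T := by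
  have h1 : HasDerivAt (fun T : ℝ => (1 - T) * (15 - T)) (-1 * (15 - T) + (1 - T) * -1) T :=
    ((hasDerivAt_id T).const_sub 1).fun_mul ((hasDerivAt_id T).const_sub 15)
  exact h1.congr_deriv (by ring)

lemma continuous_AT : Continuous AT := by
  unfold AT
  fun_prop

lemma hasDerivAt_sqrt_AT {T : ℝ} (hT : T ∈ Ioo (0 : ℝ) 1) :
    HasDerivAt (fun T => √(AT T)) ((-16 + 2 * T) / (2 * √(AT T))) T :=
  (hasDerivAt_AT T).sqrt (AT_pos hT.1 hT.2).ne'

lemma VK.hasDerivAt_phi (c : VK) {g g' : ℝ → ℝ} {T : ℝ} (hT : T ∈ Ioo (0 : ℝ) 1)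
    (hg : HasDerivAt g (g' T) T) : HasDerivAt (c.phi g) (c.phi' g g' T) T := by
  have h1 : HasDerivAt (fun T => √(AT T) * g T / √56 ^ (c.i + c.j)) _ T :=
    ((hasDerivAt_sqrt_AT hT).fun_mul hg).div_const _
  refine h1.congr_deriv ?_
  have hA : √(AT T) ≠ 0 := (Real.sqrt_pos.2 (AT_pos hT.1 hT.2)).ne'
  have hA2 : √(AT T) ^ 2 = AT T := Real.sq_sqrt (AT_pos hT.1 hT.2).le
  unfold VK.phi'
  congr 1
  field_simp
  rw [hA2]
  ring

lemma VK.measurable_phi (c : VK) {g : ℝ → ℝ} (hg : Measurable g) : Measurable (c.phi g) := by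
  unfold VK.phi
  exact ((continuous_AT.sqrt.measurable).mul hg).div_const _

lemma VK.measurable_phi' (c : VK) {g g' : ℝ → ℝ} (hg : Measurable g) (hg' : Measurable g') :
    Measurable (c.phi' g g') := by
  unfold VK.phi'
  have h1 : Measurable fun T : ℝ => 2 * AT T := (continuous_AT.const_mul 2).measurable
  have h2 : Measurable fun T : ℝ => -16 + 2 * T := by fun_prop
  have h3 : Measurable fun T : ℝ => 2 * √(AT T) := (continuous_AT.sqrt.const_mul 2).measurable
  exact (((h1.mul hg').add (h2.mul hg)).div h3).div_const _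

lemma VK.continuousOn_phi (c : VK) {g : ℝ → ℝ} {S : Set ℝ} (hg : ContinuousOn g S) :
    ContinuousOn (c.phi g) S := by
  unfold VK.phi
  exact (continuous_AT.sqrt.continuousOn.mul hg).div_const _

lemma VK.continuousOn_phi' (c : VK) {g g' : ℝ → ℝ} (hg : ContinuousOn g (Ioo 0 1))
    (hg' : ContinuousOn g' (Ioo 0 1)) : ContinuousOn (c.phi' g g') (Ioo 0 1) := by
  unfold VK.phi'
  have h1 : Continuous fun T : ℝ => 2 * AT T := continuous_AT.const_mul 2
  have h2 : Continuous fun T : ℝ => -16 + 2 * T := by fun_prop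
  have h3 : Continuous fun T : ℝ => 2 * √(AT T) := continuous_AT.sqrt.const_mul 2
  refine ContinuousOn.div_const (ContinuousOn.div ((h1.continuousOn.mul hg').add
    (h2.continuousOn.mul hg)) h3.continuousOn fun T hT => ?_) _
  exact mul_ne_zero two_ne_zero (Real.sqrt_pos.2 (AT_pos hT.1 hT.2)).ne'

lemma VK.tendsto_phi (c : VK) {g gh : ℝ → ℝ} (k : ℕ)
    (hg : ∀ T ∈ Ioo (0 : ℝ) 1, g T = (1 - T) ^ k * gh T) (hc : ContinuousOn gh (Icc 0 1)) :
    Tendsto (fun T => c.phi g T / (1 - T) ^ ((k : ℝ) + 1 / 2)) (𝓝[<] 1)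
      (𝓝 (√14 * gh 1 / √56 ^ (c.i + c.j))) := by
  have h1 : Tendsto gh (𝓝[<] 1) (𝓝 (gh 1)) := by
    have h2 := hc 1 (right_mem_Icc.2 zero_le_one)
    refine h2.tendsto.mono_left ?_
    have h3 : 𝓝[<] (1 : ℝ) = 𝓝[Ioo 0 1] 1 := (nhdsWithin_Ioo_eq_nhdsLT one_pos).symm
    rw [h3]
    exact nhdsWithin_mono _ Ioo_subset_Icc_self
  have h4 : Tendsto (fun T : ℝ => √(15 - T)) (𝓝[<] 1) (𝓝 √14) := by
    have h5 : Continuous fun T : ℝ => √(15 - T) := by fun_prop
    have h6 := h5.tendsto 1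
    rw [show (15 : ℝ) - 1 = 14 by norm_num] at h6
    exact h6.mono_left nhdsWithin_le_nhds
  refine ((h4.mul h1).div_const (√56 ^ (c.i + c.j))).congr' ?_
  have h0 : ∀ᶠ T in 𝓝[<] (1 : ℝ), T ∈ Ioo (0 : ℝ) 1 := Ioo_mem_nhdsLT one_pos
  filter_upwards [h0] with T hT
  have hT1 : 0 < 1 - T := by linarith [hT.2]
  have e1 : (1 - T) ^ ((k : ℝ) + 1 / 2) = (1 - T) ^ k * √(1 - T) := by
    rw [Real.rpow_add hT1, Real.rpow_natCast, Real.sqrt_eq_rpow]
  have e2 : √(AT T) = √(1 - T) * √(15 - T) := Real.sqrt_mul hT1.le _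
  unfold VK.phi
  rw [e1, e2, hg T hT]
  have h7 : √(1 - T) ≠ 0 := (Real.sqrt_pos.2 hT1).ne'
  have h8 : (1 - T) ^ k ≠ 0 := pow_ne_zero _ hT1.ne'
  field_simp

/-- the regularity of the value terms of a column -/
theorem VK.reg (c : VK) {g g' gh : ℝ → ℝ} (k : ℕ) (hg0 : Measurable g) (hg0' : Measurable g')
    (hgc : ContinuousOn g (Icc 0 1)) (hgc' : ContinuousOn g' (Ioo 0 1))
    (hgd : ∀ T ∈ Ioo (0 : ℝ) 1, HasDerivAt g (g' T) T)
    (hg : ∀ T ∈ Ioo (0 : ℝ) 1, g T = (1 - T) ^ k * gh T) (hc : ContinuousOn gh (Icc 0 1)) :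
    ∀ t ∈ c.gts g g' k (√14 * gh 1 / √56 ^ (c.i + c.j)), t.Reg := by
  have hw : Continuous fun d : R9 => d 3 ^ c.e := by fun_prop
  have h1 : Tendsto (fun T => c.phi g T / 2 / (1 - T) ^ ((k : ℝ) + 1 / 2)) (𝓝[<] 1)
      (𝓝 (√14 * gh 1 / √56 ^ (c.i + c.j) / 2)) := by
    refine ((c.tendsto_phi k hg hc).div_const 2).congr fun T => ?_
    rw [div_right_comm]
  intro t ht
  unfold VK.gts at ht
  rcases List.mem_cons.1 ht with rfl | ht
  · exact ⟨hw, (c.measurable_phi hg0).div_const 2, (c.measurable_phi' hg0 hg0').div_const 2,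
      (c.continuousOn_phi (hgc.mono Ico_subset_Icc_self)).div_const 2,
      (c.continuousOn_phi' (hgc.mono Ioo_subset_Icc_self) hgc').div_const 2,
      fun T hT => (c.hasDerivAt_phi hT (hgd T hT)).div_const 2, h1⟩
  · rcases List.mem_cons.1 ht with rfl | ht
    · exact ⟨hw, (c.measurable_phi hg0).div_const 2, (c.measurable_phi' hg0 hg0').div_const 2,
        (c.continuousOn_phi (hgc.mono Ico_subset_Icc_self)).div_const 2,
        (c.continuousOn_phi' (hgc.mono Ioo_subset_Icc_self) hgc').div_const 2,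
        fun T hT => (c.hasDerivAt_phi hT (hgd T hT)).div_const 2, h1⟩
    · exact absurd ht List.not_mem_nil

/-- the weight on the diagonal -/
theorem w_diag {E : Type*} [NormedAddCommGroup E] [InnerProductSpace ℝ E] {V : List VE} :
    ∀ t ∈ lG V, ∀ x N : E, ‖x‖ = 1 → ‖N‖ = 1 → ⟪x, N⟫ = 0 → t.w (dv x N x N 0) = 1 := by
  intro t ht x N hx hN hxN
  unfold lG at ht
  obtain ⟨y, hy, hty⟩ := List.mem_flatMap.1 ht
  have h3 : (dv x N x N (0 : E)) 3 = 1 := by
    change ⟪N, N⟫ = 1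
    rw [real_inner_self_eq_norm_sq, hN]
    norm_num
  unfold VK.gts at hty
  rcases List.mem_cons.1 hty with rfl | hty
  · change (dv x N x N (0 : E)) 3 ^ _ = 1
    rw [h3, one_pow]
  · rcases List.mem_cons.1 hty with rfl | hty
    · change (dv x N x N (0 : E)) 3 ^ _ = 1
      rw [h3, one_pow]
    · exact absurd hty List.not_mem_nil

/-! ### The value at `T = 0` -/

/-- the value terms at `T = 0` -/
theorem val_zero (V : List VE) (d : R9) :
    ((lG V).map fun t => t.φ 0 * t.Q d).sum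
      = √15 / 2 * (V.map fun x => x.g 0 * PE.ev (vT 0 (d 0) (d 1) (d 2) (d 3)) x.K.Q).sum := by
  have h6 : √(56 : ℝ) ≠ 0 := by positivity
  have hA : AT 0 = 15 := by unfold AT; norm_num
  induction V with
  | nil => simp [lG]
  | cons x V ih =>
    unfold lG at ih ⊢
    rw [List.flatMap_cons, List.map_append, List.sum_append, ih, List.map_cons, List.sum_cons,
      mul_add]
    congr 1
    set f := vT 0 (d 0) (d 1) (d 2) (d 3) with hf
    have et : PE.ev f ptt = d 1 / √56 := by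
      rw [eq_div_iff h6, mul_comm]
      exact ev_ptt _ _ _ _ _
    have ep : PE.ev f ppp = d 2 / √56 := by
      rw [eq_div_iff h6, mul_comm]
      exact ev_ppp _ _ _ _ _
    have ec : PE.ev f pc = d 3 := ev_pc _ _ _ _ _
    have e0 : f 0 = d 0 := rfl
    have hQ : PE.ev f x.K.Q = (1 - d 0) ^ x.K.a * d 3 ^ x.K.e
        * ((d 1 ^ x.K.i * d 2 ^ x.K.j + d 1 ^ x.K.j * d 2 ^ x.K.i) / √56 ^ (x.K.i + x.K.j)) := by
      simp only [VK.Q, PE.ev_mul, PE.ev_add, PE.ev_pow, PE.ev_sub, PE.ev_c, PE.ev_v, et, ep, ec,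
        e0, Int.cast_one, div_pow]
      rw [pow_add]
      field_simp
    rw [hQ]
    simp only [VK.gts, List.map_cons, List.map_nil, List.sum_cons, List.sum_nil, GT.Q, VK.phi,
      hA, add_zero]
    have h6p : √(56 : ℝ) ^ (x.K.i + x.K.j) ≠ 0 := pow_ne_zero _ h6
    field_simp

/-- `kap2 15 a q / √2` -/
def kq : ℕ → ℕ → ℚ
  | 0, q => if q = 8 then 64
      else if q = 9 then 4
      else if q = 10 then 2 / 3
      else if q = 11 then 1 / 6 else 0
  | a + 1, q => kq a (q - 1) - kq a q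

lemma kap_top : SO.kap 15 15 = √2 / 256 := by
  rw [SO.kap_self (by norm_num)]
  have h2 : (√2 : ℝ) ^ 2 = 2 := Real.sq_sqrt (by norm_num)
  have h0 : (0 : ℝ) < √2 := Real.sqrt_pos.2 (by norm_num)
  have e : -(((15 : ℕ) : ℝ) / 2) = -(7 : ℝ) + -(1 / 2) := by
    push_cast
    norm_num
  rw [e, Real.rpow_add (by norm_num), Real.rpow_neg (by norm_num), Real.rpow_neg (by norm_num),
    ← Real.sqrt_eq_rpow]
  rw [show (2 : ℝ) ^ (7 : ℝ) = 128 by norm_num]
  field_simp
  linarith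

lemma kap_step {q : ℕ} (hq : 8 ≤ q) :
    SO.kap 15 (q + 1) = ((q : ℝ) - 15 / 2) * SO.kap 15 q / q := by
  have := SO.kap_succ (m := 15) (q := q) (by omega)
  simpa using this

lemma kap_14 : SO.kap 15 14 = 7 * √2 / 832 := by
  have h := kap_step (q := 14) (by norm_num)
  rw [kap_top] at h
  norm_num at h
  linarith

lemma kap_13 : SO.kap 15 13 = 7 * √2 / 352 := by
  have h := kap_step (q := 13) (by norm_num)
  rw [kap_14] at h
  norm_num at h
  linarith

lemma kap_12 : SO.kap 15 12 = 7 * √2 / 132 := by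
  have h := kap_step (q := 12) (by norm_num)
  rw [kap_13] at h
  norm_num at h
  linarith

lemma kap_11 : SO.kap 15 11 = √2 / 6 := by
  have h := kap_step (q := 11) (by norm_num)
  rw [kap_12] at h
  norm_num at h
  linarith

lemma kap_10 : SO.kap 15 10 = 2 * √2 / 3 := by
  have h := kap_step (q := 10) (by norm_num)
  rw [kap_11] at h
  norm_num at h
  linarith

lemma kap_9 : SO.kap 15 9 = 4 * √2 := by
  have h := kap_step (q := 9) (by norm_num)
  rw [kap_10] at h
  norm_num at h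
  linarith

lemma kap_8 : SO.kap 15 8 = 64 * √2 := by
  have h := kap_step (q := 8) (by norm_num)
  rw [kap_9] at h
  norm_num at h
  linarith

lemma kap2_m {a q : ℕ} (h1 : 8 + a ≤ q) (h2 : q ≤ 11) : kap2 15 a q = √2 * (kq a q : ℝ) := by
  induction a generalizing q with
  | zero =>
    rw [OT.kap2_zero]
    have h3 : q = 8 ∨ q = 9 ∨ q = 10 ∨ q = 11 := by omega
    rcases h3 with rfl | rfl | rfl | rfl
    · rw [kap_8]; norm_num [kq]; ring
    · rw [kap_9]; norm_num [kq]; ring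
    · rw [kap_10]; norm_num [kq]; ring
    · rw [kap_11]; norm_num [kq]; ring
  | succ a ih =>
    rw [OT.kap2_succ, ih (by omega) (by omega), ih (by omega) (by omega), kq]
    push_cast
    ring

/-- a flux column -/
def isFl (x : VE) : Prop := x.K.i = 0 ∧ x.K.j = 0 ∧ x.K.q = x.k + 7 + 1 + x.K.a

instance (x : VE) : Decidable (isFl x) := by unfold isFl; infer_instance

/-- the flux of a list of columns -/
theorem flux_lG (V : List VE) : OT.fluxC 15 7 (lG V)
    = (V.map fun x => if isFl x then x.lim * kap2 15 x.K.a x.K.q else 0).sum := by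
  induction V with
  | nil => simp [lG, OT.fluxC]
  | cons x V ih =>
    unfold lG OT.fluxC at ih ⊢
    rw [List.flatMap_cons, List.map_append, List.sum_append, ih, List.map_cons, List.sum_cons]
    congr 1
    simp only [VK.gts, List.map_cons, List.map_nil, List.sum_cons, List.sum_nil, add_zero]
    by_cases h : isFl x
    · have h1 : GT.fl 7 ⟨fun T => x.K.phi x.g T / 2, fun T => x.K.phi' x.g x.g' T / 2, x.k,
          x.lim / 2, x.K.q, x.K.a, x.K.i, x.K.j, fun d => d 3 ^ x.K.e⟩ := h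
      have h2 : GT.fl 7 ⟨fun T => x.K.phi x.g T / 2, fun T => x.K.phi' x.g x.g' T / 2, x.k,
          x.lim / 2, x.K.q, x.K.a, x.K.j, x.K.i, fun d => d 3 ^ x.K.e⟩ := ⟨h.2.1, h.1, h.2.2⟩
      rw [if_pos h, if_pos h1, if_pos h2]
      ring
    · have h1 : ¬ GT.fl 7 ⟨fun T => x.K.phi x.g T / 2, fun T => x.K.phi' x.g x.g' T / 2, x.k,
          x.lim / 2, x.K.q, x.K.a, x.K.i, x.K.j, fun d => d 3 ^ x.K.e⟩ := h
      have h2 : ¬ GT.fl 7 ⟨fun T => x.K.phi x.g T / 2, fun T => x.K.phi' x.g x.g' T / 2, x.k,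
          x.lim / 2, x.K.q, x.K.a, x.K.j, x.K.i, fun d => d 3 ^ x.K.e⟩ :=
        fun h3 => h ⟨h3.2.1, h3.1, h3.2.2⟩
      rw [if_neg h, if_neg h1, if_neg h2, add_zero]


end

end Vale.Agent.P224.S15
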