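import Vale.Agent.P224.SP.Right5
import Vale.Agent.P224.S15.Fun15

/-!
Models of the scalar functions on `(1/4, 1)`, `m = 15`.
-/

namespace Vale.Agent.P224.S15

open Set Real Vale.Agent.P224.SP

/-- model of `f1` near `1` -/
@[irreducible] def rq1 : List ℤ :=
  [5260451326202637507084787463718080370539, -60460515719733714962920683766674381582400,
  1128988312471894383855852354953126173613479, -17882843165993426391195298443044014949126778,
  231005657692256823070469703508235831760863127, -2462978452968730975791123955104803658041437449,
  22041318041747799592815079932848496094563400354,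
  -168054464258449132997522871538748002866942605225,
  1105317834933672295445289402703455341656953111849,
  -6335175413538026664464848024998984952728139746401,
  31906289899097565949439283454246216763509090801039,
  -142171203301977494959908372819681604342902842960641,
  563662804034872738880937323369453733868307245391164,
  -1997707545115659076533327554081480446596327181756293,
  6353761242632820655535029501462975282235938918039226,
  -18192884580074037331105734950458649744174358900628642,
  47019066071840754336146492943417048682418692920422675,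
  -109914321817453232144348938742283758225814586881400956,
  232781188005879141582415439703113132605169472139340364,
  -447174119073811849934225179941786631842249551639411298,
  779813486310534708464537369449648938418735249336730852,
  -1235025153994444105217094906473408786515311786426518967,
  1776463594849356766424859230037796476597950113514585557,
  -2320036630899701430204020328208012074456889190862883304,
  2749080230138445838076065653170709853608907918007107434,
  -2952259722869603273377353223885852718930622418885827037,
  2868980004590592102089971361342568332410186380817689640,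
  -2517842880692636226271258632491444904988109278569223776,
  1990418716150333168405945846582857041310548170898873748,
  -1412828982735329932854012991752048121295662379542974679,
  896928922853388866005389898260606700612433570050751168,
  -506823981176511823969341411917089947109969009179880291,
  253406354314036972351148440660982978316066152180254415,
  -111292647044031347258783343987111162986318003336187409,
  42544897833464141904200262914607794934757736368419714,
  -13994336520273829806521499161838467564012902618378487,
  3902191796992813505706465242660498709707847244843307,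
  -904295576104860772820250052853571759822569030134102,
  169455338612481408778016220396639885849282493385473,
  -24667820407403586264681978889562482719959727224398,
  2617038483127370918444338059224279063154183530042,
  -179981994445673935515595047473183634212901186027,
  6021776199835958188161179092541667458039549394]

/-- denominator -/
@[irreducible] def rD1 : ℤ := 824366543000000000000000000000000000000

/-- error -/
@[irreducible] def rE1 : ℤ := 8243665430000000000000001

/-- model of `f2` near `1` -/
@[irreducible] def rq2 : List ℤ :=
  [9256355698191094229920114619497478000702, -124735280698955746197317020323858915902577,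
  2290825212134848336628062078828699539290037, -36153797907554510855528658320533007027089974,
  466442009682865373193988609569406596199045981, -4970156437258686227162041825555113783759934933,
  44462031526470344483881982491095817843731208995,
  -338920062795369178264807911474507360069909356828,
  2228743427244478755792189251165630044701419283228,
  -12772503043139796764986417517944757348552280489504,
  64320683843008060837109296249754729237641965568676,
  -286583840623003257103593564502817417302151992838057,
  1136139069846737513054253378691454309271581050583766,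
  -4026436365385450667269988303291924542670946576553228,
  12805610420522811372083716668095977670873761026527623,
  -36665219490789881296969013880913047533962741063539123,
  94757227428813930539851471760887464420361824168732288,
  -221503254335463435238789436105710616344692100242581631,
  469097065727694141207375492597882929069374505844839138,
  -901118235004331113867869184665418749732238863132411052,
  1571401675359648824425386221019035332101240254887128610,
  -2488654074666418803507733482645196370710625922368479411,
  3579629511065005437225069096789704809465735061437639313,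
  -4674878386460148801146305962794873912793962253927584778,
  5539329244315618210294773967398956210189949491774239574,
  -5948659672761918450498259260940297173994536660114801149,
  5780791774314354784482256889396282789073542462396689512,
  -5073224336945495526848641481555698809416459307385945050,
  4010475560123292403446619291709879213624890888297116373,
  -2846671277946863664565337174233832501011021266356390493,
  1807183811210845156092881678543851155445652846897158854,
  -1021170544276212787998245708394390741114376605473960088,
  510570446630424458587346850570782006606863876572891956,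
  -224234223032921493504057627953061125046068974863249003,
  85719641348222182197660996091130126512812848822613484,
  -28195693223215715386849365177883970488512605787107343,
  7862068636829453544284529228688128499163190229289660,
  -1821950277522427349521863079110228349927155994097123,
  341412480137392023005849533926185770558704735508099,
  -49699618406858617893663830691680569276440225827483,
  5272670501640798818018784614816662095433912927486,
  -362616807312104027336337402031246274720534247092,
  12132265853550154529486734317832246275546102565]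

/-- denominator -/
@[irreducible] def rD2 : ℤ := 824366543000000000000000000000000000000

/-- error -/
@[irreducible] def rE2 : ℤ := 8243665430000000000000001

/-- model of `f3` near `1` -/
@[irreducible] def rq3 : List ℤ :=
  [538475729612863565043636955052868684, -8653565505893713905307532121319958756,
  161197404332175235607035362656007132067, -2554163491923819559342726454255774035944,
  32994519178139645696861281317097324021335, -351782234701474309008817176662059065838281,
  3148073773510220713285585578572366637992766, -24002285444014543803916467828281963232887105,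
  157865030957383686291392739922246296354259252, -904803758817871546568203467535193108202939639,
  4556901315961090140766472692193487026136500379,
  -20304998140575202433041998752060136138431944214,
  80502435801269956165966989583893601335833564525,
  -285312068378260405756165372276867617581756881461,
  907439993508006567891258676412324002363989976652,
  -2598289546577049952919798523988269032769312053224,
  6715201850469893839213836403746996145453503543152,
  -15697791605671814240684872857974210556200941898206,
  33245391311015219682900235947264270659937753183721,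
  -63864512406096461342713611263496301613467990127054,
  111371256706925003883105636434296533085233979717331,
  -176383386227296775291105019687294094750712503730074,
  253710083377994795191099372195001347352589614787381,
  -331341507395971856541435641876397709906140726380813,
  392616040456938031583081834618515695635780576267151,
  -421633239141383694583811321032825309335716349323875,
  409739170981209892787728020909873830254232710931087,
  -359590572947360282803099319085714250077663858497100,
  284265301050680515905162111561599973793946367112272,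
  -201775648265577410906429247632994195666822145674686,
  128096408900870246516108642695597521641584322731702,
  -72382881592608829458283979640466983790055445246767,
  36190619283552249979257205832694460870245816611750,
  -15894424235477318707887588096149575418585987095403,
  6076110179264040597901814427121654783143179852300,
  -1998620355823297651872170791912447780967743401050,
  557296676217096998566909404355852758850246547727,
  -129148124820298197403697496892959108086584598886,
  24200972599291874067738981740321316997724217071,
  -3522964085331489158572894786225797474147078289, 373755358312348875127716305596177167444918429,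
  -25704328698492167372282553146314618460130901, 860006454158780897195313854325249402984994]

/-- denominator -/
@[irreducible] def rD3 : ℤ := 117649000000000000000000000000000000

/-- error -/
@[irreducible] def rE3 : ℤ := 1176490000000000000001

/-- model of `f4` near `1` -/
@[irreducible] def rq4 : List ℤ :=
  [241108702140555226391787452804038820, 112517394060727319419985434542992550,
  -34291011016827263876451063950973911, 16002428645335357398027376453889398,
  -9905966069521761653313198387737537, 6897067418083819600601541651357711,
  -5151870929037002531646182700033469, 4020779848154326018865942153083326,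
  -3212291444523338567697317237598546, 2569096041314469088314658854384156,
  -2001521641287603892949652910542156, 1472129103414971191234352828718072,
  -989483632112201207017756053948663, 588919958417986418737626303301131,
  -301108551181547322809879203097121, 128235186095318195870888961856506,
  -43928309136782552603427767914488, 11571625434585683954236253154588,
  -2192291863083989936128702484943, 265219384906706159465782457442,
  -15361427700519114369674902866]

/-- denominator -/
@[irreducible] def rD4 : ℤ := 352947000000000000000000000000000000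

/-- error -/
@[irreducible] def rE4 : ℤ := 352947000000000000001

/-- `f3c = b13 (L13 - L13 1)` -/
noncomputable def f3c (T : ℝ) : ℝ := b13 T * (L13 T - L13 1)

/-- `f4 = sqrt (7/15) b13` -/
noncomputable def f4 (T : ℝ) : ℝ := √(7 / 15) * b13 T

/-- radicands -/
def r1L : List ℤ := [15, -16, 1]
/-- radicand of `y1 y2` (times 225) -/
def r12L : List ℤ := [225, 0, -226, 0, 1]
/-- radicand of `b13` (times 15) -/
def r3L : List ℤ := [15, 14, -1]

lemma ev_r1L (T : ℝ) : ev r1L T = (1 - T) * (15 - T) := by
  simp only [r1L, ev_cons, ev_nil]; push_cast; ring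
lemma ev_r12L (T : ℝ) : ev r12L T = (1 - T ^ 2) * (225 - T ^ 2) := by
  simp only [r12L, ev_cons, ev_nil]; push_cast; ring
lemma ev_r3L (T : ℝ) : ev r3L T = (1 + T) * (15 - T) := by
  simp only [r3L, ev_cons, ev_nil]; push_cast; ring

lemma y1_one : y1 1 = 0 := by unfold y1; rw [qR_1]; norm_num
lemma y12_one : y12 1 = 0 := by unfold y12; rw [qR_12]; norm_num

lemma continuous_y1 : Continuous y1 := (continuous_qR _ _).sqrt
lemma continuous_b13 : Continuous b13 := (continuous_qR _ _).sqrt
lemma continuous_y12 : Continuous y12 := ((continuous_qR _ _).comp (continuous_pow 2)).sqrt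

lemma continuousOn_l1 : ContinuousOn l1 (Ioc 0 1) :=
  continuousOn_qL (by norm_num) (fun _ hT => hT.1) fun _ hT => qD_1_pos hT.2

lemma continuousOn_L13 : ContinuousOn L13 (Ioi 0) :=
  continuousOn_qL (by norm_num) (fun _ hT => hT) fun _ hT => qD_3_pos hT

lemma continuousOn_L0 : ContinuousOn L0 (Ioc 0 1) := by
  have h : ContinuousOn (qL (-226 / 225) (1 / 225) (112 / 225)) (Ioc 0 1) := by
    refine continuousOn_qL (by norm_num) (fun _ hT => hT.1) fun T hT => ?_
    unfold qD; linarith [hT.2]
  refine h.comp (continuous_pow 2).continuousOn fun T hT => ?_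
  exact ⟨pow_pos hT.1 2, pow_le_one₀ hT.1.le hT.2⟩

lemma c1u : chkN 4 1 4 4 (smulL (-1) (cL r1L (upL rq1 rE1 7) (2 * 1 * 15 * rD1))) = true := by
  decide +kernel

lemma c1l : chkN 4 1 4 4 (cL r1L (loL rq1 rE1 7) (2 * 1 * 15 * rD1)) = true := by
  decide +kernel

lemma c2u : chkN 4 1 4 4 (smulL (-1) (cL r12L (upL rq2 rE2 7) (2 * 2 * 225 * rD2))) = true := by
  decide +kernel

lemma c2l : chkN 4 1 4 4 (cL r12L (loL rq2 rE2 7) (2 * 2 * 225 * rD2)) = true := by
  decide +kernel

lemma c3u : chkN 4 1 4 4 (smulL (-1) (cG r3L (upL rq3 rE3 8) (2 * 1 * rD3))) = true := by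
  decide +kernel

lemma c3l : chkN 4 1 4 4 (cG r3L (loL rq3 rE3 8) (2 * 1 * rD3)) = true := by
  decide +kernel

lemma c4a : chkN 1 1 4 4 (addL (smulL 225 (mulL (upL rq4 rE4 8) (upL rq4 rE4 8)))
      (smulL (-7 * (rD4 * rD4)) r3L)) = true := by
  decide +kernel

lemma c4b : chkN 1 1 4 4 (addL (smulL (-225) (mulL (loL rq4 rE4 8) (loL rq4 rE4 8)))
      (smulL (7 * (rD4 * rD4)) r3L)) = true := by
  decide +kernel

lemma c4c : chkN 1 1 4 4 (upL rq4 rE4 8) = true := by
  decide +kernel

lemma ap_f1 : Ap SR wR f1 (15 * rD1) (mulL r1L rq1) (15 * rE1) := by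
  intro T hT
  have hT0 : (0 : ℝ) < T := by linarith [hT.1]
  have hy := y1_pos hT0 hT.2
  have hk : (15 : ℝ) ≠ 0 := by norm_num
  have hyd : ∀ T ∈ Ioo (1 / 4 : ℝ) 1,
      HasDerivAt y1 (ev (derL r1L) T / (2 * ((15 : ℤ) : ℝ) * y1 T)) T := by
    intro x hx
    have hx0 : (0 : ℝ) < x := by linarith [hx.1]
    refine (hasDerivAt_y1 hx0 hx.2).congr_deriv ?_
    have := (y1_pos hx0 hx.2).ne'
    simp only [r1L, derL, derAux, ev_cons, ev_nil]
    push_cast
    field_simp
    ring
  have hL : ∀ T ∈ Ioo (1 / 4 : ℝ) 1, HasDerivAt l1 (-((1 : ℤ) : ℝ) / (T * y1 T)) T := by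
    intro x hx
    have hx0 : (0 : ℝ) < x := by linarith [hx.1]
    simpa using hasDerivAt_l1 hx0 hx.2
  have hy2 : ∀ T ∈ Ioo (1 / 4 : ℝ) 1, (((15 : ℤ) : ℝ)) * y1 T ^ 2 = ev r1L T := by
    intro x hx
    have hx0 : (0 : ℝ) < x := by linarith [hx.1]
    rw [y1_sq hx0 hx.2, ev_r1L]; push_cast; ring
  have hyc : ContinuousOn y1 (Ioc (1 / 4) 1) := continuous_y1.continuousOn
  have hLc : ContinuousOn l1 (Ioc (1 / 4) 1) :=
    continuousOn_l1.mono (Ioc_subset_Ioc_left (by norm_num))
  have hyp : ∀ T ∈ Ioo (1 / 4 : ℝ) 1, 0 < y1 T := fun x hx =>
    y1_pos (by linarith [hx.1]) hx.2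
  have hTc : T ∈ Ioc (1 / 4 : ℝ) 1 := ⟨hT.1, hT.2.le⟩
  have hu : (rD1 : ℝ) * l1 T ≤ y1 T * ev (upL rq1 rE1 7) T := by
    refine le_of_cL (k0 := 15) (n := 1) (a := 1 / 4) (by norm_num) (by norm_num) hyp hy2 hyd hL
      hyc hLc y1_one l1_one (fun x hx => ?_) hTc
    have h1 := c1u
    have h2 := chk_of_mem h1 (by norm_num) hx
    rw [ev_smulL] at h2; push_cast at h2 ⊢; linarith
  have hl : y1 T * ev (loL rq1 rE1 7) T ≤ (rD1 : ℝ) * l1 T := by
    refine ge_of_cL (k0 := 15) (n := 1) (a := 1 / 4) (by norm_num) (by norm_num) hyp hy2 hyd hL
      hyc hLc y1_one l1_one (fun x hx => ?_) hTc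
    have h1 := c1l
    exact chk_of_mem h1 (by norm_num) hx
  rw [ev_upL] at hu
  rw [ev_loL] at hl
  have hq := hy2 T hT
  rw [ev_mulL, ← hq]
  unfold f1 wR
  push_cast at hq ⊢
  rw [ev_r1L] at hq
  have hE : (0 : ℝ) ≤ rE1 := by
    have : (0 : ℤ) ≤ rE1 := by decide +kernel
    exact_mod_cast this
  have h1T : 0 < 1 - T := by linarith [hT.2]
  have hw : 0 ≤ (rE1 : ℝ) * (1 - T) ^ 7 := mul_nonneg hE (pow_nonneg h1T.le 7)
  have hb : 15 * y1 T ^ 2 * ((rE1 : ℝ) * (1 - T) ^ 7) ≤ 15 * rE1 * (1 - T) ^ 8 := by
    have e1 : 15 * (rE1 : ℝ) * (1 - T) ^ 8 = (15 * (1 - T)) * (rE1 * (1 - T) ^ 7) := by ring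
    rw [e1, hq]
    refine mul_le_mul_of_nonneg_right ?_ hw
    nlinarith [hT.2]
  rw [abs_le]
  constructor
  · nlinarith [mul_le_mul_of_nonneg_left hl (mul_nonneg (by norm_num : (0 : ℝ) ≤ 15) hy.le)]
  · nlinarith [mul_le_mul_of_nonneg_left hu (mul_nonneg (by norm_num : (0 : ℝ) ≤ 15) hy.le)]

lemma ap_f2 : Ap SR wR f2 (225 * rD2) (mulL r12L rq2) (450 * rE2) := by
  intro T hT
  have hT0 : (0 : ℝ) < T := by linarith [hT.1]
  have hy := y12_pos hT0 hT.2
  have hyd : ∀ T ∈ Ioo (1 / 4 : ℝ) 1,
      HasDerivAt y12 (ev (derL r12L) T / (2 * ((225 : ℤ) : ℝ) * y12 T)) T := by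
    intro x hx
    have hx0 : (0 : ℝ) < x := by linarith [hx.1]
    refine (hasDerivAt_y12 hx0 hx.2).congr_deriv ?_
    have := (y12_pos hx0 hx.2).ne'
    simp only [r12L, derL, derAux, ev_cons, ev_nil]
    push_cast
    field_simp
    ring
  have hL : ∀ T ∈ Ioo (1 / 4 : ℝ) 1, HasDerivAt L0 (-((2 : ℤ) : ℝ) / (T * y12 T)) T := by
    intro x hx
    have hx0 : (0 : ℝ) < x := by linarith [hx.1]
    have := hasDerivAt_L0 hx0 hx.2
    push_cast
    exact this
  have hy2 : ∀ T ∈ Ioo (1 / 4 : ℝ) 1, (((225 : ℤ) : ℝ)) * y12 T ^ 2 = ev r12L T := by
    intro x hx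
    have hx0 : (0 : ℝ) < x := by linarith [hx.1]
    rw [y12_sq hx0 hx.2, ev_r12L]; push_cast; ring
  have hyc : ContinuousOn y12 (Ioc (1 / 4) 1) := continuous_y12.continuousOn
  have hLc : ContinuousOn L0 (Ioc (1 / 4) 1) :=
    continuousOn_L0.mono (Ioc_subset_Ioc_left (by norm_num))
  have hyp : ∀ T ∈ Ioo (1 / 4 : ℝ) 1, 0 < y12 T := fun x hx =>
    y12_pos (by linarith [hx.1]) hx.2
  have hTc : T ∈ Ioc (1 / 4 : ℝ) 1 := ⟨hT.1, hT.2.le⟩
  have hu : (rD2 : ℝ) * L0 T ≤ y12 T * ev (upL rq2 rE2 7) T := by
    refine le_of_cL (k0 := 225) (n := 2) (a := 1 / 4) (by norm_num) (by norm_num) hyp hy2 hyd hL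
      hyc hLc y12_one L0_one (fun x hx => ?_) hTc
    have h1 := c2u
    have h2 := chk_of_mem h1 (by norm_num) hx
    rw [ev_smulL] at h2; push_cast at h2 ⊢; linarith
  have hl : y12 T * ev (loL rq2 rE2 7) T ≤ (rD2 : ℝ) * L0 T := by
    refine ge_of_cL (k0 := 225) (n := 2) (a := 1 / 4) (by norm_num) (by norm_num) hyp hy2 hyd hL
      hyc hLc y12_one L0_one (fun x hx => ?_) hTc
    have h1 := c2l
    exact chk_of_mem h1 (by norm_num) hx
  rw [ev_upL] at hu
  rw [ev_loL] at hl
  have hq := hy2 T hT
  rw [ev_mulL, ← hq]
  unfold f2 wR
  push_cast at hq ⊢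
  rw [ev_r12L] at hq
  have hE : (0 : ℝ) ≤ rE2 := by
    have : (0 : ℤ) ≤ rE2 := by decide +kernel
    exact_mod_cast this
  have h1T : 0 < 1 - T := by linarith [hT.2]
  have hw : 0 ≤ (rE2 : ℝ) * (1 - T) ^ 7 := mul_nonneg hE (pow_nonneg h1T.le 7)
  have hb : 225 * y12 T ^ 2 * ((rE2 : ℝ) * (1 - T) ^ 7) ≤ 450 * rE2 * (1 - T) ^ 8 := by
    have e1 : 450 * (rE2 : ℝ) * (1 - T) ^ 8 = (450 * (1 - T)) * (rE2 * (1 - T) ^ 7) := by ring
    rw [e1, hq]
    refine mul_le_mul_of_nonneg_right ?_ hw
    have e2 : (1 - T ^ 2) * (225 - T ^ 2) = (1 - T) * ((1 + T) * (225 - T ^ 2)) := by ring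
    rw [e2, mul_comm (450 : ℝ)]
    refine mul_le_mul_of_nonneg_left ?_ h1T.le
    nlinarith [hT.2, hT0]
  rw [abs_le]
  constructor
  · nlinarith [mul_le_mul_of_nonneg_left hl (mul_nonneg (by norm_num : (0 : ℝ) ≤ 225) hy.le)]
  · nlinarith [mul_le_mul_of_nonneg_left hu (mul_nonneg (by norm_num : (0 : ℝ) ≤ 225) hy.le)]

lemma ap_f3 : Ap SR wR f3c rD3 rq3 rE3 := by
  intro T hT
  have hT0 : (0 : ℝ) < T := by linarith [hT.1]
  have hyd : ∀ T ∈ Ioo (1 / 4 : ℝ) 1,
      HasDerivAt b13 (ev (derL r3L) T / (2 * ((15 : ℤ) : ℝ) * b13 T)) T := by
    intro x hx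
    have hx0 : (0 : ℝ) < x := by linarith [hx.1]
    refine (hasDerivAt_b13 hx0 hx.2.le).congr_deriv ?_
    have := (b13_pos hx0 hx.2.le).ne'
    simp only [r3L, derL, derAux, ev_cons, ev_nil]
    push_cast
    field_simp
    ring
  have hL : ∀ T ∈ Ioo (1 / 4 : ℝ) 1,
      HasDerivAt (fun T => L13 T - L13 1) (-((1 : ℤ) : ℝ) / (T * b13 T)) T := by
    intro x hx
    have hx0 : (0 : ℝ) < x := by linarith [hx.1]
    have := (hasDerivAt_L13 hx0 hx.2.le).sub_const (L13 1)
    push_cast
    exact this
  have hy2 : ∀ T ∈ Ioo (1 / 4 : ℝ) 1, (((15 : ℤ) : ℝ)) * b13 T ^ 2 = ev r3L T := by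
    intro x hx
    have hx0 : (0 : ℝ) < x := by linarith [hx.1]
    rw [b13_sq hx0 hx.2.le, ev_r3L]; push_cast; ring
  have hyc : ContinuousOn b13 (Ioc (1 / 4) 1) := continuous_b13.continuousOn
  have hLc : ContinuousOn (fun T => L13 T - L13 1) (Ioc (1 / 4) 1) :=
    (continuousOn_L13.mono fun x hx => (by linarith [hx.1] : (0 : ℝ) < x)).sub
      continuousOn_const
  have hyp : ∀ T ∈ Ioc (1 / 4 : ℝ) 1, 0 < b13 T := fun x hx =>
    b13_pos (by linarith [hx.1]) hx.2
  have hTc : T ∈ Ioc (1 / 4 : ℝ) 1 := ⟨hT.1, hT.2.le⟩
  have hz : ∀ E : ℤ, ev rq3 1 + E * (1 - 1) ^ 8 = 0 := by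
    intro E
    have h1 : rq3.foldr (fun a s => a + s) 0 = 0 := by decide +kernel
    have h2 : ∀ l : List ℤ, ev l 1 = ((l.foldr (fun a s => a + s) 0 : ℤ) : ℝ) := by
      intro l
      induction l with
      | nil => simp
      | cons a l ih => simp only [ev_cons, List.foldr_cons, ih]; push_cast; ring
    rw [h2, h1]; norm_num
  have hu : (rD3 : ℝ) * (b13 T * (L13 T - L13 1)) ≤ ev (upL rq3 rE3 8) T := by
    refine le_of_cG (L := fun T => L13 T - L13 1) (k0 := 15) (n := 1) (a := 1 / 4) (by norm_num)
      (by norm_num) hyp hy2 hyd hL hyc hLc (by simp) ?_ (fun x hx => ?_) hTc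
    · rw [ev_upL, hz]
    have h1 := c3u
    have h2 := chk_of_mem h1 (by norm_num) hx
    rw [ev_smulL] at h2; push_cast at h2 ⊢; linarith
  have hl : ev (loL rq3 rE3 8) T ≤ (rD3 : ℝ) * (b13 T * (L13 T - L13 1)) := by
    refine ge_of_cG (L := fun T => L13 T - L13 1) (k0 := 15) (n := 1) (a := 1 / 4) (by norm_num)
      (by norm_num) hyp hy2 hyd hL hyc hLc (by simp) ?_ (fun x hx => ?_) hTc
    · have := hz (-rE3)
      rw [ev_loL]
      push_cast at this
      linarith
    have h1 := c3l
    exact chk_of_mem h1 (by norm_num) hx
  rw [ev_upL] at hu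
  rw [ev_loL] at hl
  unfold f3c wR
  rw [abs_le]
  constructor <;> linarith

lemma ap_f4 : Ap SR wR f4 rD4 rq4 rE4 := by
  intro T hT
  have hT0 : (0 : ℝ) < T := by linarith [hT.1]
  have hD : (0 : ℝ) < rD4 := by
    have : (0 : ℤ) < rD4 := by decide +kernel
    exact_mod_cast this
  have hf : f4 T ^ 2 = 7 / 225 * ev r3L T := by
    unfold f4
    rw [mul_pow, Real.sq_sqrt (by norm_num), b13_sq hT0 hT.2.le, ev_r3L]; ring
  have hf0 : 0 ≤ f4 T := mul_nonneg (Real.sqrt_nonneg _) (Real.sqrt_nonneg _)
  have h1 := c4a
  have h2 := c4b
  have h3 := c4c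
  have h1' := chk_of_mem h1 (by norm_num) hT
  have h2' := chk_of_mem h2 (by norm_num) hT
  have h3' := chk_of_mem h3 (by norm_num) hT
  rw [ev_addL, ev_smulL, ev_smulL, ev_mulL] at h1' h2'
  push_cast at h1' h2'
  have hu : (rD4 : ℝ) * f4 T ≤ ev (upL rq4 rE4 8) T := by
    refine (pow_le_pow_iff_left₀ (mul_nonneg hD.le hf0) h3' two_ne_zero).1 ?_
    rw [mul_pow, hf, sq (ev (upL rq4 rE4 8) T)]
    linarith
  have hl : ev (loL rq4 rE4 8) T ≤ (rD4 : ℝ) * f4 T := by
    refine le_of_sq (mul_nonneg hD.le hf0) ?_
    rw [mul_pow, hf, sq (ev (loL rq4 rE4 8) T)]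
    linarith
  rw [ev_upL] at hu
  rw [ev_loL] at hl
  unfold wR
  rw [abs_le]
  constructor <;> linarith

end Vale.Agent.P224.S15
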