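import Vale.Agent.P224.S15.Mults

/-!
Nonnegativity on an interval of `T` from nonnegative Bernstein coefficients.
-/

namespace Vale.Agent.P224.S15

open Vale.Agent.P224.UE Vale.Agent.P224.POS Vale.Agent.P224.PO
open scoped RealInnerProductSpace

noncomputable section

/-- `c * (q T - a) ^ k * (b - q T) ^ j * P` -/
def tterm (q a b : Int) (k j : Nat) (c : Nat) (P : PE) : PE :=
  .mul (.mul (.c (Int.ofNat c)) (mulT q a b k j)) P

/-- the sum of the terms of a list `(c, P)`, number `k`, of degree `n` -/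
def tsum (q a b : Int) (n : Nat) (L : List (Nat × PE)) (k : Nat) : PE :=
  List.rec (motive := fun _ => Nat → PE) (fun _ => .c 0)
    (fun x _ ih k => .add (tterm q a b k (Nat.sub n k) x.1 x.2) (ih (Nat.succ k))) L k

lemma tterm_nonneg {q a b : ℤ} {f : ℕ → ℝ} (h0 : (a : ℝ) ≤ q * f 4) (h1 : (q : ℝ) * f 4 ≤ b)
    (k j c : ℕ) {P : PE} (hP : 0 ≤ PE.ev f P) : 0 ≤ PE.ev f (tterm q a b k j c P) := by
  unfold tterm
  rw [PE.ev_mul, PE.ev_mul, PE.ev_c]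
  have hc : (0 : ℝ) ≤ ((Int.ofNat c : ℤ) : ℝ) := by
    rw [Int.ofNat_eq_natCast, Int.cast_natCast]
    exact Nat.cast_nonneg c
  exact mul_nonneg (mul_nonneg hc (mulT_nonneg h0 h1 _ _)) hP

lemma tsum_nonneg {q a b : ℤ} {f : ℕ → ℝ} (h0 : (a : ℝ) ≤ q * f 4) (h1 : (q : ℝ) * f 4 ≤ b)
    (n : ℕ) (L : List (Nat × PE)) (hL : ∀ x ∈ L, 0 ≤ PE.ev f x.2) (k : ℕ) :
    0 ≤ PE.ev f (tsum q a b n L k) := by
  induction L generalizing k with
  | nil =>
    have e : tsum q a b n [] k = .c 0 := rfl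
    rw [e, PE.ev_c, Int.cast_zero]
  | cons x L ih =>
    have e : tsum q a b n (x :: L) k
      = .add (tterm q a b k (n - k) x.1 x.2) (tsum q a b n L (k + 1)) := rfl
    rw [e, PE.ev_add]
    exact add_nonneg (tterm_nonneg h0 h1 _ _ _ (hL x (by simp)))
      (ih (fun x' hx' => hL x' (by simp [hx'])) (k + 1))

/-- **Nonnegativity on an interval** from the identity
`D * Q = ∑ c_k (q T - a) ^ k (b - q T) ^ (n - k) P_k`. -/
theorem pos_of_tsum {Ms : List ℕ} (q a b : ℤ) (D n : ℕ) (hD : 0 < D) {Q : PE}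
    {L : List (Nat × PE)}
    (h : chk Ms (.sub (.mul (.c (Int.ofNat D)) Q) (tsum q a b n L 0)) = true) {f : ℕ → ℝ}
    (hf : ∀ i, Ms.length + 10 ≤ i → f i = 0) (h0 : (a : ℝ) ≤ q * f 4) (h1 : (q : ℝ) * f 4 ≤ b)
    (hL : ∀ x ∈ L, 0 ≤ PE.ev f x.2) : 0 ≤ PE.ev f Q := by
  have e := ev_eq_of_chk h f hf
  rw [PE.ev_mul, PE.ev_c, Int.ofNat_eq_natCast, Int.cast_natCast] at e
  have h2 : 0 ≤ (D : ℝ) * PE.ev f Q := by
    rw [e]
    exact tsum_nonneg h0 h1 n L hL 0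
  exact nonneg_of_mul_nonneg_right h2 (by exact_mod_cast hD)

/-- lists of nonnegative polynomials -/
lemma pl_nil {f : ℕ → ℝ} : ∀ x ∈ ([] : List (Nat × PE)), 0 ≤ PE.ev f x.2 := by
  intro x hx
  exact absurd hx List.not_mem_nil

lemma pl_cons {f : ℕ → ℝ} {c : ℕ} {P : PE} {L : List (Nat × PE)} (h : 0 ≤ PE.ev f P)
    (hL : ∀ x ∈ L, 0 ≤ PE.ev f x.2) : ∀ x ∈ (c, P) :: L, 0 ≤ PE.ev f x.2 := by
  intro x hx
  rcases List.mem_cons.1 hx with rfl | hx
  · exact h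
  · exact hL x hx

end

end Vale.Agent.P224.S15
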