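import Vale.Agent.P224.OT.Sharp

/-!
The certificate with a parameter in dimension 15 at the parameter zero: the static rows and the
identity with the resources.
-/

namespace Vale.Agent.P224.S15

open MeasureTheory Set Vale.Agent.P224.UE Vale.Agent.P224.PO
open scoped RealInnerProductSpace

noncomputable section

/-- the rows at the parameter zero; `r` is a square root of `56`, `l` the number
`log (32 / 7)`, `κ` the coefficient of `s ^ 3` -/
def S0 (r l κ : ℝ) : OT.SCert :=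
  [(⟨0, 0, 0, 0, 0, 0, 0, 0⟩, fun _ => (210 * l - 319) * (-1568 / 455625) + κ * (-10797506 / 1537734375)),
   (⟨0, 0, 0, 1, 0, 0, 0, 0⟩, fun _ => ((210 * l - 319) * (6358 / 9675)) * (r * (1 / 56))),
   (⟨0, 1, 0, 0, 0, 0, 0, 0⟩, fun _ => (210 * l - 319) * (-34494221 / 9142875)),
   (⟨1, 0, 0, 1, 0, 0, 0, 0⟩, fun _ => ((210 * l - 319) * (-175616 / 9675)) * (1 / 56)),
   (⟨3, 0, 0, 0, 0, 0, 0, 0⟩, fun _ => (210 * l - 319) * (-79904 / 1015875)),
   (⟨0, 0, 0, 2, 0, 0, 0, 0⟩, fun _ => (κ * (-6281408 / 20503125)) * (1 / 56)),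
   (⟨0, 1, 0, 1, 0, 0, 0, 0⟩, fun _ => (κ * (80864 / 4100625)) * (r * (1 / 56))),
   (⟨0, 2, 0, 0, 0, 0, 0, 0⟩, fun _ => κ * (-5963849 / 102515625)),
   (⟨1, 0, 0, 0, 0, 0, 0, 0⟩, fun _ => (κ * (1783264 / 1537734375)) * (r * (1 / 56))),
   (⟨1, 0, 0, 2, 0, 0, 0, 0⟩, fun _ => (κ * (-6673408 / 102515625)) * (r * (1 / 3136))),
   (⟨1, 1, 0, 1, 0, 0, 0, 0⟩, fun _ => (κ * (63290752 / 102515625)) * (1 / 56)),
   (⟨1, 2, 0, 0, 0, 0, 0, 0⟩, fun _ => (κ * (-1902656 / 102515625)) * (r * (1 / 56))),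
   (⟨3, 1, 0, 0, 0, 0, 0, 0⟩, fun _ => κ * (141274 / 102515625))]

/-- the symmetrised rows at the parameter zero -/
def R00 (r l κ : ℝ) (d : R9) : ℝ :=
  (OT.Rs 15 (S0 r l κ) 0 d + OT.Rs 15 (S0 r l κ) 0 (sw9 d)) / 2

/-- the rows with the special value at the parameter zero -/
def RoT (r l κ : ℝ) (S : OT.SCert) (T : ℝ) (d : R9) : ℝ :=
  if T = 0 then R00 r l κ d else (OT.Rs 15 S T d + OT.Rs 15 S T (sw9 d)) / 2

lemma RoT_zero (r l κ : ℝ) (S : OT.SCert) (d : R9) : RoT r l κ S 0 d = R00 r l κ d :=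
  if_pos rfl

lemma RoT_pos (r l κ : ℝ) (S : OT.SCert) {T : ℝ} (hT : 0 < T) (d : R9) :
    RoT r l κ S T d = (OT.Rs 15 S T d + OT.Rs 15 S T (sw9 d)) / 2 :=
  if_neg hT.ne'

/-- the static rows are null -/
theorem null_R00 {X : Type*} [MeasurableSpace X] {E : Type*} [NormedAddCommGroup E]
    [InnerProductSpace ℝ E] [MeasurableSpace E] [BorelSpace E] [SecondCountableTopology E]
    {μ : Measure X} [IsFiniteMeasure μ] {p n : X → E} (hG : TwoG μ 15 p n) (r l κ : ℝ) :
    Null μ p n 0 (R00 r l κ) := by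
  have e : R00 r l κ = fun d => (OT.Rs 15 (S0 r l κ) 0 d
      + OT.Rs 15 (S0 r l κ) 0 (sw9 d)) / 2 := rfl
  rw [e]
  exact OT.null_sym hG _ ⟨le_rfl, one_pos⟩

/-- the rows are null -/
theorem null_RoT {X : Type*} [MeasurableSpace X] {E : Type*} [NormedAddCommGroup E]
    [InnerProductSpace ℝ E] [MeasurableSpace E] [BorelSpace E] [SecondCountableTopology E]
    {μ : Measure X} [IsFiniteMeasure μ] {p n : X → E} (hG : TwoG μ 15 p n) (r l κ : ℝ)
    (S : OT.SCert) {T : ℝ} (hT : T ∈ Ico (0 : ℝ) 1) : Null μ p n 0 (RoT r l κ S T) := by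
  rcases hT.1.eq_or_lt with h | h
  · subst h
    have e : RoT r l κ S 0 = R00 r l κ := by
      funext d
      exact RoT_zero _ _ _ _ _
    rw [e]
    exact null_R00 hG r l κ
  · have e : RoT r l κ S T = fun d => (OT.Rs 15 S T d + OT.Rs 15 S T (sw9 d)) / 2 := by
      funext d
      exact RoT_pos _ _ _ _ h _
    rw [e]
    exact OT.null_sym hG _ hT

/-- the value part at the parameter zero (the functions of the base) -/
def G00 (r l K : ℝ) (s t p c : ℝ) : ℝ :=
  ((596429552936404687500000 + (-390479316234820312500000) * l - 0 * K) / 3272877322558593750000) * (1) +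
    ((26947605822637500000000 + (-17739803206125000000000) * l - 0 * K) / 3272877322558593750000) * ((1 - s) ^ 2) +
    ((38924344972800000000000 + (-31109847552000000000000) * l - (-62219695104000000000000) * K) / 3272877322558593750000) * (c) +
    ((4949560253137500000000 + (-3258331201125000000000) * l - 0 * K) / 3272877322558593750000) * (c * (r / 56 * (t + p) / 2)) +
    ((4330865221495312500000 + (-2851039800984375000000) * l - 0 * K) / 3272877322558593750000) * (c * (r / 56 * (t + p) / 2)) +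
    ((-161188204130384681250000000 + 106111356951036937500000000 * l - 0 * K) / 3272877322558593750000) * (((t ^ 2 + p ^ 2) / 112)) +
    ((-266613837522213431250000000 + 175513811534999437500000000 * l - 0 * K) / 3272877322558593750000) * (((t ^ 2 + p ^ 2) / 112)) +
    ((-164640247431378468750000000 + 108383861945421562500000000 * l - 0 * K) / 3272877322558593750000) * (((t ^ 2 + p ^ 2) / 112))

/-- **The identity at the parameter zero.** -/
theorem zero_id {r : ℝ} (hr : r ^ 2 = 56) (l K κ : ℝ) (d : R9) :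
    1 + ((17219584 / 1447875) + (-917504 / 96525) * l + (1835008 / 96525) * K + (141274 / 102515625) * κ) * d 3
      - ((160 / 301) * (210 * l - 319) * RF (-(659/100)) 113 (-((3 / 8) * r)) d + κ * d 0 ^ 3)
      + R00 r l κ d
      = G00 r l K (d 0) (d 1) (d 2) (d 3)
        + (210 * l - 319) * ((3136 / 9675) * (d 3 - d 0 - r / 112 * (d 1 + d 2)) ^ 2
          - (1275328 / 9675) * (r / 112 * (d 2 - d 1)) ^ 2)
        + κ * ((476672 / 102515625) * ((r / 112 * (d 2 - d 1)) ^ 2 * (d 3 - d 0 - r / 112 * (d 1 + d 2))) +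
          (238336 / 102515625) * ((r / 112 * (d 1 + d 2)) * (d 3 - d 0 - r / 112 * (d 1 + d 2)) ^ 2) +
          (30268672 / 6834375) * ((r / 112 * (d 1 + d 2)) * (r / 112 * (d 2 - d 1)) ^ 2) +
          (-1130192 / 102515625) * (d 0 * (d 3 - d 0 - r / 112 * (d 1 + d 2)) ^ 2) +
          (16865744 / 6834375) * (d 0 * (r / 112 * (d 2 - d 1)) ^ 2)) := by
  have e0 : sw9 d 0 = d 0 := rfl
  have e1 : sw9 d 1 = d 2 := rfl
  have e2 : sw9 d 2 = d 1 := rfl
  have e3 : sw9 d 3 = d 3 := rfl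
  obtain ⟨s, hs⟩ : ∃ s, d 0 = s := ⟨_, rfl⟩
  obtain ⟨t, ht⟩ : ∃ t, d 1 = t := ⟨_, rfl⟩
  obtain ⟨p, hp⟩ : ∃ p, d 2 = p := ⟨_, rfl⟩
  obtain ⟨c, hc⟩ : ∃ c, d 3 = c := ⟨_, rfl⟩
  have k0 : ∀ q s, SM2.ker 0 q s = 1 := by
    intro q s
    simp [SM2.ker]
  simp only [R00, S0, OT.Rs, OT.STerm.R, rG, rowE, sk, sk', RF, G00, List.map_cons, List.map_nil,
    List.sum_cons, List.sum_nil, e0, e1, e2, e3, hs, ht, hp, hc, k0, pow_zero, pow_one, one_mul,
    mul_one, Nat.cast_zero, Nat.cast_one, Nat.cast_ofNat, zero_mul, mul_zero, add_zero, zero_add,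
    Nat.sub_self, Nat.add_one_sub_one, Nat.reduceSub]
  linear_combination (
    (-1056847 / 316050) * p ^ 2 + (3313 / 1505) * p ^ 2 * l + (-323 / 102515625) * p ^ 3 * r *
    κ + (3186172 / 474075) * t * p + (-19976 / 4515) * t * p * l + (152 / 102515625) * t * p *
    c * κ + (361 / 114817500) * t * p ^ 2 * r * κ + (-1056847 / 316050) * t ^ 2 + (3313 /
    1505) * t ^ 2 * l + (361 / 114817500) * t ^ 2 * p * r * κ + (-323 / 102515625) * t ^ 3 * r
    * κ + (-1124357 / 5740875000) * s * p ^ 2 * κ + (40364 / 102515625) * s * t * p * κ +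
    (-1124357 / 5740875000) * s * t ^ 2 * κ) * hr

end

end Vale.Agent.P224.S15
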